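import Crest.Agent.N76.G.Iso
import Crest.Agent.N76.G.Avg

/-! # Row 76: fact (2'), spreading in the normal directions (helper73). -/

set_option autoImplicit false

open MeasureTheory Set Metric
open scoped ENNReal RealInnerProductSpace ComplexConjugate

namespace Crest.Agent.N76.T

open Crest.Agent.N76.Red (V)
open Crest.Agent.N76.G

variable {d : ℕ}

namespace Spr

/-- the Gaussian multiplier in the directions of `U` -/
noncomputable def mul (U : Submodule ℝ (V d)) (ζ₀ : V d) (w : ℝ) (ξ : V d) : ℝ :=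
  Real.exp (-(Real.pi / (4 * w ^ 2)) * ‖U.starProjection (ξ - ζ₀)‖ ^ 2)

lemma mul_pos' (U : Submodule ℝ (V d)) (ζ₀ : V d) (w : ℝ) (ξ : V d) : 0 < mul U ζ₀ w ξ :=
  Real.exp_pos _

lemma mul_le_one (U : Submodule ℝ (V d)) (ζ₀ : V d) (w : ℝ) (ξ : V d) : mul U ζ₀ w ξ ≤ 1 := by
  unfold mul
  refine Real.exp_le_one_iff.2 ?_
  have := Real.pi_pos
  have : 0 ≤ Real.pi / (4 * w ^ 2) * ‖U.starProjection (ξ - ζ₀)‖ ^ 2 := by positivity
  linarith

lemma continuous_mul' (U : Submodule ℝ (V d)) (ζ₀ : V d) (w : ℝ) : Continuous (mul U ζ₀ w) := by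
  unfold mul; fun_prop

lemma memLp_mul (U : Submodule ℝ (V d)) (ζ₀ : V d) (w : ℝ) (g : L2 d) :
    MemLp (fun ξ => ((mul U ζ₀ w ξ : ℝ) : ℂ) * g ξ) 2 (volume : Measure (V d)) := by
  refine (Lp.memLp g).of_le ?_ (.of_forall fun ξ => ?_)
  · exact ((Complex.continuous_ofReal.comp (continuous_mul' U ζ₀ w)).aestronglyMeasurable).mul
      (Lp.aestronglyMeasurable g)
  · rw [norm_mul, Complex.norm_real, Real.norm_of_nonneg (mul_pos' U ζ₀ w ξ).le]
    exact mul_le_of_le_one_left (norm_nonneg _) (mul_le_one U ζ₀ w ξ)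

/-- multiplication by `mul` on `L²` -/
noncomputable def M (U : Submodule ℝ (V d)) (ζ₀ : V d) (w : ℝ) (g : L2 d) : L2 d :=
  (memLp_mul U ζ₀ w g).toLp _

lemma M_ae (U : Submodule ℝ (V d)) (ζ₀ : V d) (w : ℝ) (g : L2 d) :
    (M U ζ₀ w g : V d → ℂ) =ᵐ[volume] fun ξ => ((mul U ζ₀ w ξ : ℝ) : ℂ) * g ξ :=
  (memLp_mul U ζ₀ w g).coeFn_toLp

lemma inner_M (U : Submodule ℝ (V d)) (ζ₀ : V d) (w : ℝ) (g h : L2 d) :
    inner ℂ (M U ζ₀ w g) h = inner ℂ g (M U ζ₀ w h) := by
  rw [L2.inner_def, L2.inner_def]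
  refine integral_congr_ae ?_
  filter_upwards [M_ae U ζ₀ w g, M_ae U ζ₀ w h] with ξ h1 h2
  simp only [h1, h2, RCLike.inner_apply, map_mul, Complex.conj_ofReal]
  ring

/-- the multiplier is an average of characters -/
lemma mul_eq (U : Submodule ℝ (V d)) (ζ₀ : V d) {w : ℝ} (hw : 0 < w) (ξ : V d) :
    ((mul U ζ₀ w ξ : ℝ) : ℂ) = (((2 * w) ^ Module.finrank ℝ U : ℝ) : ℂ) *
      ∫ v : U, Complex.exp (-((4 * Real.pi * w ^ 2 : ℝ) : ℂ) * ‖v‖ ^ 2 +
        (2 * Real.pi * Complex.I) * ((⟪(v : V d), ξ - ζ₀⟫ : ℝ) : ℂ)) := by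
  have hpi := Real.pi_pos
  have h := GaussianFourier.integral_cexp_neg_mul_sq_norm_add (V := U)
    (b := ((4 * Real.pi * w ^ 2 : ℝ) : ℂ)) (by rw [Complex.ofReal_re]; positivity)
    (2 * Real.pi * Complex.I) (U.orthogonalProjectionOnto (ξ - ζ₀))
  have h2 : ∀ v : U, ⟪U.orthogonalProjectionOnto (ξ - ζ₀), v⟫ = ⟪(v : V d), ξ - ζ₀⟫ := fun v => by
    rw [Submodule.inner_orthogonalProjectionOnto_eq_of_mem_right, real_inner_comm]
  simp only [h2] at h
  rw [h]
  have h3 : ((Real.pi : ℂ) / ((4 * Real.pi * w ^ 2 : ℝ) : ℂ)) ^ ((Module.finrank ℝ U : ℂ) / 2) =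
      ((((2 * w) ^ Module.finrank ℝ U)⁻¹ : ℝ) : ℂ) := by
    have e1 : (Real.pi : ℂ) / ((4 * Real.pi * w ^ 2 : ℝ) : ℂ) = ((((2 * w)⁻¹) ^ 2 : ℝ) : ℂ) := by
      rw [← Complex.ofReal_div]
      congr 1
      field_simp
      ring
    have e2 : ((Module.finrank ℝ U : ℂ) / 2) = (((Module.finrank ℝ U : ℝ) / 2 : ℝ) : ℂ) := by
      push_cast; ring
    rw [e1, e2, ← Complex.ofReal_cpow (by positivity)]
    congr 1
    rw [← Real.rpow_natCast _ 2, ← Real.rpow_mul (by positivity), ← inv_pow, ← Real.rpow_natCast]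
    congr 1
    push_cast; ring
  rw [h3, ← mul_assoc, ← Complex.ofReal_mul, mul_inv_cancel₀ (by positivity), Complex.ofReal_one,
    one_mul, mul, Complex.ofReal_exp]
  congr 1
  have e3 : ‖U.orthogonalProjectionOnto (ξ - ζ₀)‖ = ‖U.starProjection (ξ - ζ₀)‖ := rfl
  rw [e3]
  have hw' : (w : ℂ) ≠ 0 := by exact_mod_cast hw.ne'
  have hp' : (Real.pi : ℂ) ≠ 0 := by exact_mod_cast hpi.ne'
  push_cast
  field_simp
  rw [Complex.I_sq]
  ring

lemma conj_gamF_add (a t : ℝ) (β : Ph d) (v ξ : V d) :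
    conj (gamF a t (β + (v, 0)) ξ) =
      Complex.exp ((2 * Real.pi * Complex.I) * ((⟪v, ξ⟫ : ℝ) : ℂ)) * conj (gamF a t β ξ) := by
  obtain ⟨y, ζ⟩ := β
  simp only [Prod.mk_add_mk, add_zero]
  rw [Iso.conj_gamF a t (y + v), Iso.conj_gamF a t y, ← mul_assoc, ← Complex.exp_add,
    inner_add_right, real_inner_comm v ξ]
  congr 2
  push_cast; ring

lemma integrable_k (U : Submodule ℝ (V d)) {b : ℝ} (hb : 0 < b) :
    Integrable (fun v : U => Real.exp (-b * ‖v‖ ^ 2)) := by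
  apply Integrable.of_integral_ne_zero
  rw [GaussianFourier.integral_rexp_neg_mul_sq_norm hb]
  have := Real.pi_pos
  positivity

lemma co_M (U : Submodule ℝ (V d)) (ζ₀ : V d) {w a : ℝ} (hw : 0 < w) (ha : 0 < a) (t : ℝ)
    (g : L2 d) (β : Ph d) :
    co a t (M U ζ₀ w g) β = (((2 * w) ^ Module.finrank ℝ U : ℝ) : ℂ) *
      ∫ v : U, Complex.exp (-((4 * Real.pi * w ^ 2 : ℝ) : ℂ) * ‖v‖ ^ 2 -
        (2 * Real.pi * Complex.I) * ((⟪(v : V d), ζ₀⟫ : ℝ) : ℂ)) *
          co a t g (β + ((v : V d), 0)) := by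
  have hpi := Real.pi_pos
  set E : U → V d → ℂ := fun v ξ => Complex.exp (-((4 * Real.pi * w ^ 2 : ℝ) : ℂ) * ‖v‖ ^ 2 +
        (2 * Real.pi * Complex.I) * ((⟪(v : V d), ξ - ζ₀⟫ : ℝ) : ℂ)) with hE
  have hF : Integrable (fun ξ => conj (gamF a t β ξ) * g ξ) := by
    have h1 : MemLp (fun ξ => conj (gamF a t β ξ)) 2 (volume : Measure (V d)) :=
      (Iso.memLp_gamF' ha t β).star
    exact h1.integrable_mul (Lp.memLp g)
  have hI : Integrable (fun q : V d × U => E q.2 q.1 * (conj (gamF a t β q.1) * g q.1))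
      ((volume : Measure (V d)).prod (volume : Measure U)) := by
    have h1 := hF.norm.mul_prod (integrable_k U (b := 4 * Real.pi * w ^ 2) (by positivity))
    refine h1.mono' ?_ (.of_forall fun q => ?_)
    · refine AEStronglyMeasurable.mul (Continuous.aestronglyMeasurable ?_)
        hF.aestronglyMeasurable.comp_fst
      simp only [hE]
      fun_prop
    · rw [norm_mul, mul_comm, hE, Complex.norm_exp]
      refine le_of_eq ?_
      congr 2
      simp [← Complex.ofReal_pow]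
  calc co a t (M U ζ₀ w g) β
      = ∫ ξ, (((2 * w) ^ Module.finrank ℝ U : ℝ) : ℂ) *
          ∫ v : U, E v ξ * (conj (gamF a t β ξ) * g ξ) := by
        rw [Iso.co_eq' ha]
        refine integral_congr_ae ?_
        filter_upwards [M_ae U ζ₀ w g] with ξ h1
        rw [h1, mul_eq U ζ₀ hw, integral_mul_const]
        ring
    _ = (((2 * w) ^ Module.finrank ℝ U : ℝ) : ℂ) *
          ∫ v : U, ∫ ξ, E v ξ * (conj (gamF a t β ξ) * g ξ) := by
        rw [integral_const_mul, integral_integral_swap hI]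
    _ = _ := by
        congr 1
        refine integral_congr_ae (.of_forall fun v => ?_)
        simp only
        rw [Iso.co_eq' ha, ← integral_const_mul]
        refine integral_congr_ae (.of_forall fun ξ => ?_)
        simp only [hE, conj_gamF_add]
        rw [← mul_assoc, ← mul_assoc, ← mul_assoc, ← Complex.exp_add, inner_sub_right]
        congr 3
        push_cast; ring

lemma lintegral_k (U : Submodule ℝ (V d)) {b : ℝ} (hb : 0 < b) (v₀ : U) :
    ∫⁻ v : U, ENNReal.ofReal (Real.exp (-b * ‖v - v₀‖ ^ 2)) =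
      ENNReal.ofReal ((Real.pi / b) ^ ((Module.finrank ℝ U : ℝ) / 2)) := by
  rw [lintegral_sub_right_eq_self (fun v : U => ENNReal.ofReal (Real.exp (-b * ‖v‖ ^ 2))),
    ← ofReal_integral_eq_lintegral_ofReal (integrable_k U hb)
      (.of_forall fun _ => by positivity), GaussianFourier.integral_rexp_neg_mul_sq_norm hb]

lemma rpow_half_sq {x : ℝ} (hx : 0 ≤ x) (m : ℕ) : (x ^ 2) ^ ((m : ℝ) / 2) = x ^ m := by
  rw [← Real.rpow_natCast _ 2, ← Real.rpow_mul hx, ← Real.rpow_natCast]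
  congr 1
  push_cast; ring

/-- (L1) -/
lemma L1 (U : Submodule ℝ (V d)) (ζ₀ u : V d) {w a th : ℝ} (hw : 0 < w) (ha : 0 < a) (t : ℝ)
    (hth : 0 < th) (g : L2 d) {S : Set (Ph d)} (hS : MeasurableSet S)
    (hS' : ∀ β ∈ S, ‖U.starProjection (pos t β - u)‖ ≤ th) :
    ∫ β in S, ‖co a t (M U ζ₀ w g) β‖ ^ 2 ≤
      Real.exp Real.pi * (2 * th * w) ^ (Module.finrank ℝ U) * ‖g‖ ^ 2 := by
  have hpi := Real.pi_pos
  set m := Module.finrank ℝ U with hm
  set k : U → ℝ≥0∞ := fun v => ENNReal.ofReal (Real.exp (-(4 * Real.pi * w ^ 2) * ‖v‖ ^ 2))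
    with hk
  have hkm : Measurable k := by
    refine ENNReal.measurable_ofReal.comp (Continuous.measurable ?_); fun_prop
  have hk1 : ∀ v, k v ≤ 1 := fun v => by
    refine ENNReal.ofReal_le_one.2 (Real.exp_le_one_iff.2 ?_)
    have : 0 ≤ 4 * Real.pi * w ^ 2 * ‖v‖ ^ 2 := by positivity
    linarith
  set Z : ℝ≥0∞ := ENNReal.ofReal ((2 * w) ^ m) with hZ
  have hkZ : Z * ∫⁻ v, k v = 1 := by
    have := lintegral_k U (b := 4 * Real.pi * w ^ 2) (by positivity) 0
    simp only [sub_zero] at this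
    rw [hk, this, hZ, ← ENNReal.ofReal_mul (by positivity),
      show Real.pi / (4 * Real.pi * w ^ 2) = ((2 * w)⁻¹) ^ 2 by field_simp; ring,
      rpow_half_sq (by positivity), ← mul_pow, mul_inv_cancel₀ (by positivity), one_pow,
      ENNReal.ofReal_one]
  have hc := continuous_co' ha t g
  have hcm : Measurable fun q : Ph d × U => ‖co a t g (q.1 + ((q.2 : V d), 0))‖ₑ := by
    refine Continuous.measurable ?_; fun_prop
  -- pointwise
  have h1 : ∀ β, ‖co a t (M U ζ₀ w g) β‖ₑ ^ 2 ≤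
      Z * ∫⁻ v : U, k v * ‖co a t g (β + ((v : V d), 0))‖ₑ ^ 2 := fun β => by
    have e1 : ‖co a t (M U ζ₀ w g) β‖ₑ ≤
        Z * ∫⁻ v : U, k v * ‖co a t g (β + ((v : V d), 0))‖ₑ := by
      rw [co_M U ζ₀ hw ha, enorm_mul]
      refine mul_le_mul' (le_of_eq ?_)
        ((enorm_integral_le_lintegral_enorm _).trans (lintegral_mono fun v => le_of_eq ?_))
      · rw [← ofReal_norm, Complex.norm_real, Real.norm_of_nonneg (by positivity)]
      · rw [enorm_mul, ← ofReal_norm (Complex.exp _), Complex.norm_exp]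
        congr 3
        simp [← Complex.ofReal_pow]
    have e2 := lintegral_weight_sq_le (μ := (volume : Measure U)) hkm.aemeasurable
      (hcm.comp (measurable_const.prodMk measurable_id (f := fun _ => β))).aemeasurable
    simp only [Function.comp_def, id] at e2
    calc _ ≤ (Z * ∫⁻ v : U, k v * ‖co a t g (β + ((v : V d), 0))‖ₑ) ^ 2 := by gcongr
      _ ≤ Z ^ 2 * ((∫⁻ v, k v) * ∫⁻ v : U, k v * ‖co a t g (β + ((v : V d), 0))‖ₑ ^ 2) := by
          rw [mul_pow]; gcongr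
      _ = Z * (Z * ∫⁻ v, k v) * ∫⁻ v : U, k v * ‖co a t g (β + ((v : V d), 0))‖ₑ ^ 2 := by ring
      _ = _ := by rw [hkZ, mul_one]
  -- the slab has small `U`-sections
  have h2 : ∀ β : Ph d, ∫⁻ v : U, S.indicator (1 : Ph d → ℝ≥0∞) (β - ((v : V d), 0)) ≤
      ENNReal.ofReal (Real.exp Real.pi * th ^ m) := fun β => by
    set v₀ : U := U.orthogonalProjectionOnto (pos t β - u)
    have e1 := lintegral_k U (b := Real.pi / th ^ 2) (by positivity) v₀
    rw [show Real.pi / (Real.pi / th ^ 2) = th ^ 2 by field_simp, rpow_half_sq hth.le] at e1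
    rw [ENNReal.ofReal_mul (by positivity), ← e1, ← lintegral_const_mul' _ _ ENNReal.ofReal_ne_top]
    refine lintegral_mono fun v => ?_
    by_cases hv : β - ((v : V d), 0) ∈ S
    · rw [indicator_of_mem hv, Pi.one_apply, ← ENNReal.ofReal_mul (by positivity),
        ← Real.exp_add, ENNReal.one_le_ofReal]
      refine Real.one_le_exp ?_
      have e2 := hS' _ hv
      have e3 : U.starProjection (pos t (β - ((v : V d), 0)) - u) = -((v - v₀ : U) : V d) := by
        have : pos t (β - ((v : V d), 0)) - u = (pos t β - u) - (v : V d) := by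
          simp only [pos, Prod.fst_sub, Prod.snd_sub, sub_zero]; abel
        rw [this, map_sub, Submodule.starProjection_mem_subspace_eq_self]
        simp [v₀]
      rw [e3, norm_neg] at e2
      have e4 : ‖v - v₀‖ ^ 2 ≤ th ^ 2 := pow_le_pow_left₀ (norm_nonneg _) e2 2
      have e5 : Real.pi / th ^ 2 * ‖v - v₀‖ ^ 2 ≤ Real.pi / th ^ 2 * th ^ 2 := by gcongr
      rw [div_mul_cancel₀ _ (by positivity)] at e5
      linarith
    · rw [indicator_of_notMem hv]; exact zero_le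
  have hSm : Measurable (S.indicator (1 : Ph d → ℝ≥0∞)) := measurable_one.indicator hS
  have h3 : ∫⁻ β in S, ‖co a t (M U ζ₀ w g) β‖ₑ ^ 2 ≤
      Z * (ENNReal.ofReal (Real.exp Real.pi * th ^ m) * ∫⁻ β, ‖co a t g β‖ₑ ^ 2) := by
    calc ∫⁻ β in S, ‖co a t (M U ζ₀ w g) β‖ₑ ^ 2
        ≤ ∫⁻ β, Z * ∫⁻ v : U, S.indicator (1 : Ph d → ℝ≥0∞) β *
            ‖co a t g (β + ((v : V d), 0))‖ₑ ^ 2 := by
          rw [← lintegral_indicator hS]
          refine lintegral_mono fun β => ?_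
          by_cases hβ : β ∈ S
          · rw [indicator_of_mem hβ, indicator_of_mem hβ]
            refine (h1 β).trans ?_
            gcongr with v
            exact hk1 v
          · rw [indicator_of_notMem hβ]; exact zero_le
      _ = Z * ∫⁻ v : U, ∫⁻ β, S.indicator (1 : Ph d → ℝ≥0∞) β *
            ‖co a t g (β + ((v : V d), 0))‖ₑ ^ 2 := by
          rw [lintegral_const_mul' _ _ ENNReal.ofReal_ne_top, lintegral_lintegral_swap]
          exact ((hSm.comp measurable_fst).mul (hcm.pow_const 2)).aemeasurable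
      _ = Z * ∫⁻ v : U, ∫⁻ β, S.indicator (1 : Ph d → ℝ≥0∞) (β - ((v : V d), 0)) *
            ‖co a t g β‖ₑ ^ 2 := by
          congr 1
          refine lintegral_congr fun v => ?_
          have : (volume : Measure (Ph d)).IsAddRightInvariant :=
            inferInstanceAs ((volume : Measure (V d)).prod volume).IsAddRightInvariant
          rw [← lintegral_sub_right_eq_self _ (((v : V d), 0) : Ph d)]
          simp only [sub_add_cancel]
      _ = Z * ∫⁻ β, ∫⁻ v : U, S.indicator (1 : Ph d → ℝ≥0∞) (β - ((v : V d), 0)) *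
            ‖co a t g β‖ₑ ^ 2 := by
          rw [lintegral_lintegral_swap]
          refine Measurable.aemeasurable (Measurable.mul (hSm.comp ?_) ?_)
          · refine Continuous.measurable ?_; fun_prop
          · refine Measurable.pow_const (Continuous.measurable ?_) 2; fun_prop
      _ ≤ _ := by
          refine mul_le_mul_right ?_ _
          rw [← lintegral_const_mul' _ _ ENNReal.ofReal_ne_top]
          refine lintegral_mono fun β => ?_
          rw [lintegral_mul_const' _ _ (by simp)]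
          exact mul_le_mul_left (h2 β) _
  rw [lintegral_enorm_sq_eq ((memLp_co ha t _).restrict S), lintegral_enorm_sq_eq (memLp_co ha t g),
    integral_co_sq ha, hZ, ← ENNReal.ofReal_mul (by positivity),
    ← ENNReal.ofReal_mul (by positivity), ENNReal.ofReal_le_ofReal_iff (by positivity)] at h3
  refine h3.trans (le_of_eq ?_)
  rw [mul_pow, mul_pow, mul_pow]; ring

/-- (L2) -/
lemma L2' (U : Submodule ℝ (V d)) (ζ₀ : V d) {w a : ℝ} (ha : 0 < a) (hw : 1 / a ≤ w) (t : ℝ)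
    (φ : L2 d) :
    ∫ β in {β : Ph d | ‖U.starProjection (β.2 - ζ₀)‖ ≤ w}, ‖co a t φ β‖ ^ 2 ≤
      Real.exp Real.pi * 2 ^ d * ‖M U ζ₀ w φ‖ ^ 2 := by
  have hpi := Real.pi_pos
  have hw0 : 0 < w := lt_of_lt_of_le (by positivity) hw
  set a' := a / Real.sqrt 2 with ha'
  have ha'0 : 0 < a' := by positivity
  have ha'2 : 2 * a' ^ 2 = a ^ 2 := by
    rw [ha', div_pow, Real.sq_sqrt (by norm_num)]; ring
  set A : Set (Ph d) := {β : Ph d | ‖U.starProjection (β.2 - ζ₀)‖ ≤ w} with hA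
  have hAm : MeasurableSet A := by
    refine (isClosed_le ?_ continuous_const).measurableSet; fun_prop
  rw [← integral_co_sq ha'0 t, ← integral_const_mul, ← integral_indicator hAm]
  have i1 := (Iso.integrable_co_sq ha t φ).indicator hAm
  have i2 := (Iso.integrable_co_sq ha'0 t (M U ζ₀ w φ)).const_mul (Real.exp Real.pi * 2 ^ d)
  rw [Measure.volume_eq_prod] at i1 i2 ⊢
  rw [integral_prod_symm _ i1, integral_prod_symm _ i2]
  refine integral_mono i1.integral_prod_right i2.integral_prod_right fun ζ => ?_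
  by_cases hζ : ‖U.starProjection (ζ - ζ₀)‖ ≤ w
  · have e1 : ∀ y : V d, A.indicator (fun β => ‖co a t φ β‖ ^ 2) (y, ζ) = ‖co a t φ (y, ζ)‖ ^ 2 :=
      fun y => indicator_of_mem (show (y, ζ) ∈ A from hζ) _
    simp only [e1]
    rw [integral_const_mul, (integral_co_sq_fst ha t φ ζ).2,
      (integral_co_sq_fst ha'0 t (M U ζ₀ w φ) ζ).2, ha'2,
      Real.mul_rpow (by norm_num) (by positivity)]
    have e2 : (2 : ℝ) ^ ((d : ℝ) / 2) ≤ 2 ^ d := by
      rw [← Real.rpow_natCast]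
      exact Real.rpow_le_rpow_of_exponent_le one_le_two (by linarith [Nat.cast_nonneg (α := ℝ) d])
    have e3 : ∫ ξ, Real.exp (-2 * Real.pi * a ^ 2 * ‖ξ - ζ‖ ^ 2) * ‖φ ξ‖ ^ 2 ≤
        Real.exp Real.pi *
          ∫ ξ, Real.exp (-2 * Real.pi * a' ^ 2 * ‖ξ - ζ‖ ^ 2) * ‖M U ζ₀ w φ ξ‖ ^ 2 := by
      rw [← integral_const_mul]
      refine integral_mono_of_nonneg (.of_forall fun ξ => by positivity) ?_ ?_
      · refine Integrable.const_mul ?_ _
        refine (Iso.integrable_norm_sq_L2 (M U ζ₀ w φ)).bdd_mul (c := 1)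
          (Continuous.aestronglyMeasurable (by fun_prop)) (.of_forall fun ξ => ?_)
        rw [Real.norm_of_nonneg (Real.exp_pos _).le]
        refine Real.exp_le_one_iff.2 ?_
        have : 0 ≤ 2 * Real.pi * a' ^ 2 * ‖ξ - ζ‖ ^ 2 := by positivity
        linarith
      · filter_upwards [M_ae U ζ₀ w φ] with ξ h1
        rw [h1, norm_mul, Complex.norm_real, Real.norm_of_nonneg (mul_pos' U ζ₀ w ξ).le, mul_pow,
          ← mul_assoc, ← mul_assoc, mul, ← Real.exp_nat_mul, ← Real.exp_add, ← Real.exp_add]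
        gcongr
        have f1 : ‖U.starProjection (ξ - ζ₀)‖ ≤ ‖ξ - ζ‖ + w := by
          rw [show ξ - ζ₀ = (ξ - ζ) + (ζ - ζ₀) by abel, map_add]
          exact (norm_add_le _ _).trans (add_le_add (U.norm_starProjection_apply_le _) hζ)
        have f2 : ‖U.starProjection (ξ - ζ₀)‖ ^ 2 ≤ 2 * ‖ξ - ζ‖ ^ 2 + 2 * w ^ 2 := by
          nlinarith [pow_le_pow_left₀ (norm_nonneg _) f1 2, sq_nonneg (‖ξ - ζ‖ - w)]
        have f3 : 1 ≤ a ^ 2 * w ^ 2 := by
          rw [← mul_pow]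
          refine one_le_pow₀ ?_
          rwa [div_le_iff₀' ha] at hw
        have f4 : Real.pi / (4 * w ^ 2) * ‖U.starProjection (ξ - ζ₀)‖ ^ 2 ≤
            Real.pi / 2 * (a ^ 2 * ‖ξ - ζ‖ ^ 2 + 1) := by
          rw [div_mul_eq_mul_div, div_le_iff₀ (by positivity)]
          have : ‖ξ - ζ‖ ^ 2 ≤ a ^ 2 * w ^ 2 * ‖ξ - ζ‖ ^ 2 :=
            le_mul_of_one_le_left (by positivity) f3
          nlinarith
        have f5 : -2 * Real.pi * a' ^ 2 = -Real.pi * a ^ 2 := by rw [← ha'2]; ring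
        rw [f5]
        push_cast
        nlinarith
    calc _ ≤ 2 ^ d * (a ^ 2) ^ ((d : ℝ) / 2) * (Real.exp Real.pi *
          ∫ ξ, Real.exp (-2 * Real.pi * a' ^ 2 * ‖ξ - ζ‖ ^ 2) * ‖M U ζ₀ w φ ξ‖ ^ 2) := by
          gcongr
      _ = _ := by ring
  · have e1 : ∀ y : V d, A.indicator (fun β => ‖co a t φ β‖ ^ 2) (y, ζ) = 0 :=
      fun y => indicator_of_notMem (show (y, ζ) ∉ A from hζ) _
    simp only [e1, integral_zero]
    positivity

/-- Cauchy-Schwarz for a pairing with a function supported in `A` -/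
lemma pair_le {a : ℝ} (ha : 0 < a) (t : ℝ) {c : Ph d → ℂ} (hc : MemLp c 2 volume)
    {A : Set (Ph d)} (hA : MeasurableSet A) (hs : ∀ β, c β ≠ 0 → β ∈ A) (φ : L2 d) :
    ‖inner ℂ φ (syn a t c)‖ ^ 2 ≤ (∫ β in A, ‖co a t φ β‖ ^ 2) * ∫ β, ‖c β‖ ^ 2 := by
  have h1 := memLp_indicator_co ha t hA φ
  have e1 : inner ℂ φ (syn a t c) = inner ℂ (h1.toLp _) (hc.toLp c) := by
    rw [inner_syn ha t hc, L2.inner_def]
    refine integral_congr_ae ?_
    filter_upwards [h1.coeFn_toLp, hc.coeFn_toLp] with β e1 e2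
    rw [e1, e2, RCLike.inner_apply]
    by_cases h0 : c β = 0
    · simp [h0]
    · rw [indicator_of_mem (hs β h0), co, inner_conj_symm, mul_comm]
  have e2 : ∫ β in A, ‖co a t φ β‖ ^ 2 = ‖h1.toLp _‖ ^ 2 := by
    rw [← Iso.integral_norm_sq_L2, ← integral_indicator hA]
    refine integral_congr_ae ?_
    filter_upwards [h1.coeFn_toLp] with β e1
    rw [e1]
    by_cases hβ : β ∈ A <;> simp [hβ]
  have e3 : ∫ β, ‖c β‖ ^ 2 = ‖hc.toLp c‖ ^ 2 := by
    rw [← Iso.integral_norm_sq_L2]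
    refine integral_congr_ae ?_
    filter_upwards [hc.coeFn_toLp] with β e1
    rw [e1]
  rw [e1, e2, e3, ← mul_pow]
  exact pow_le_pow_left₀ (norm_nonneg _) (norm_inner_le_norm _ _) 2

end Spr

open Spr in
/-- **fact (2')**, analytic core -/
theorem spread (U : Submodule ℝ (V d)) {a a' : ℝ} (ha : 0 < a) (ha' : 0 < a') (t t' : ℝ)
    {c : Ph d → ℂ} (hc : MemLp c 2 volume) (ζ₀ u : V d) {w th : ℝ} (hw : 1 / a' ≤ w)
    (hth : 0 < th) (hsupp : ∀ β', c β' ≠ 0 → ‖U.starProjection (β'.2 - ζ₀)‖ ≤ w)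
    {S : Set (Ph d)} (hS : MeasurableSet S)
    (hS' : ∀ β ∈ S, ‖U.starProjection (pos t β - u)‖ ≤ th) :
    ∫ β in S, ‖co a t (syn a' t' c) β‖ ^ 2 ≤
      1000 * 2 ^ d * (2 * th * w) ^ (Module.finrank ℝ U) * ∫ β', ‖c β'‖ ^ 2 := by
  have hw0 : 0 < w := lt_of_lt_of_le (by positivity) hw
  set F := syn a' t' c with hF
  set I := ∫ β in S, ‖co a t F β‖ ^ 2 with hI
  have hI0 : 0 ≤ I := integral_nonneg fun _ => by positivity
  have hu := memLp_indicator_co ha t hS F
  set φ := loc a t S F with hφ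
  have huI : ∫ β, ‖S.indicator (co a t F) β‖ ^ 2 = I := by
    rw [hI, ← integral_indicator hS]
    refine integral_congr_ae (.of_forall fun β => ?_)
    by_cases hβ : β ∈ S <;> simp [hβ]
  have h1 : ‖inner ℂ φ F‖ = I := by
    rw [← inner_conj_symm, Complex.norm_conj, hφ, inner_loc ha t hS]
    have : ∀ β, inner ℂ F (gam a t β) * co a t F β = ((‖co a t F β‖ ^ 2 : ℝ) : ℂ) := fun β => by
      rw [← inner_conj_symm F, ← co, Complex.conj_mul']; push_cast; rfl
    simp only [this]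
    rw [integral_complex_ofReal, Complex.norm_real, Real.norm_of_nonneg hI0]
  have hAm : MeasurableSet {β : Ph d | ‖U.starProjection (β.2 - ζ₀)‖ ≤ w} := by
    refine (isClosed_le ?_ continuous_const).measurableSet; fun_prop
  have h2 := pair_le ha' t' hc hAm hsupp φ
  rw [← hF, h1] at h2
  have h3 := L2' U ζ₀ ha' hw t' φ
  set N := ‖M U ζ₀ w φ‖ ^ 2 with hN
  have hN0 : 0 ≤ N := by positivity
  have h4 := pair_le ha t hu hS (fun β hβ => mem_of_indicator_ne_zero hβ)
    (M U ζ₀ w (M U ζ₀ w φ))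
  have h5 : ‖inner ℂ (M U ζ₀ w (M U ζ₀ w φ)) (syn a t (S.indicator (co a t F)))‖ = N := by
    change ‖inner ℂ _ φ‖ = N
    rw [inner_M, inner_self_eq_norm_sq_to_K, norm_pow]
    simp [hN]
  rw [h5, huI] at h4
  have h6 := L1 U ζ₀ u hw0 ha t hth (M U ζ₀ w φ) hS hS'
  rw [← hN] at h6
  set C1 := Real.exp Real.pi * (2 * th * w) ^ Module.finrank ℝ U with hC1
  have hC10 : 0 < C1 := by positivity
  have h7 : N ≤ C1 * I := by
    rcases hN0.eq_or_lt with h0 | h0
    · rw [← h0]; positivity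
    · have : N * N ≤ N * (C1 * I) := by nlinarith [mul_le_mul_of_nonneg_right h6 hI0]
      exact le_of_mul_le_mul_left this h0
  set J := ∫ β', ‖c β'‖ ^ 2 with hJ
  have hJ0 : 0 ≤ J := integral_nonneg fun _ => by positivity
  have h8 : I ≤ Real.exp Real.pi * 2 ^ d * C1 * J := by
    rcases hI0.eq_or_lt with h0 | h0
    · rw [← h0]; positivity
    · have e1 : I * I ≤ I * (Real.exp Real.pi * 2 ^ d * C1 * J) := by
        calc I * I = I ^ 2 := by ring
          _ ≤ (Real.exp Real.pi * 2 ^ d * N) * J := h2.trans (by gcongr)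
          _ ≤ (Real.exp Real.pi * 2 ^ d * (C1 * I)) * J := by gcongr
          _ = _ := by ring
      exact le_of_mul_le_mul_left e1 h0
  have h9 : Real.exp Real.pi * Real.exp Real.pi ≤ 1000 := by
    rw [← Real.exp_add]
    have e1 : Real.pi + Real.pi ≤ (6.5 : ℝ) := by linarith [Real.pi_lt_d2]
    refine (Real.exp_le_exp.2 e1).trans ?_
    have e2 : Real.exp 6.5 ^ 2 = Real.exp 1 ^ 13 := by
      rw [← Real.exp_nat_mul, ← Real.exp_nat_mul]; norm_num
    have e3 : Real.exp 1 ^ 13 ≤ 2.72 ^ 13 :=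
      pow_le_pow_left₀ (Real.exp_pos _).le (by linarith [Real.exp_one_lt_d9]) 13
    refine (pow_le_pow_iff_left₀ (Real.exp_pos _).le (by norm_num) two_ne_zero).1 ?_
    rw [e2]; refine e3.trans (by norm_num)
  refine h8.trans ?_
  rw [hC1]
  calc _ = (Real.exp Real.pi * Real.exp Real.pi) * 2 ^ d * (2 * th * w) ^ Module.finrank ℝ U * J := by
        ring
    _ ≤ _ := by gcongr

end Crest.Agent.N76.T
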