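import Crest.Agent.N76.T.Decomp
import Crest.Agent.N76.T.Spread

/-! # Row 76 (S0101): the raw analytic facts of a Gaussian tower (helper13). -/

set_option autoImplicit false

open MeasureTheory Set Metric
open scoped ENNReal RealInnerProductSpace

namespace Crest.Agent.N76.T

open Crest.Agent.N76.Red (V)
open Crest.Agent.N76.G

variable {d : ℕ}

/-- parent window -/
theorem win_tk {b : ℕ} (hb : 1 ≤ b) {i j : ℕ} (hij : i ≤ j) (k : ℤ) :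
    win b j (tk b i k) = k / ((b ^ (2 * (j - i)) : ℕ) : ℤ) := by
  rw [win_eq_div b hij, win_tk_self hb]

theorem sum_mass_le {b : ℕ} (hb : 1 ≤ b) {A : ℕ → ℤ → Set (Ph d)}
    (hA : ∀ j k, MeasurableSet (A j k)) (al : ℕ → Finset (Node d)) (M : ℕ) (h : L2 d) (j : ℕ)
    (k : ℤ) (S : Finset (Node d)) (hS : ∀ ν ∈ S, ν.1 = k) :
    ∑ ν ∈ S, mass b A al M h j ν ≤ ‖h‖ ^ 2 := sum_mass_le' hb hA al M h j k S hS

theorem sum_mass_eq {b : ℕ} (hb : 1 ≤ b) {A : ℕ → ℤ → Set (Ph d)}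
    (hA : ∀ j k, MeasurableSet (A j k)) (al : ℕ → Finset (Node d)) (M : ℕ) (h : L2 d) (j : ℕ)
    (k : ℤ) (S : Finset (Node d)) (hS : ∀ ν ∈ S, ν.1 = k) :
    ∑ ν ∈ S, mass b A al M h j ν =
      ∫ β in ⋃ ν ∈ S, A j k ∩ tile b j ν, ‖coef b (Aset b A al) M h j k β‖ ^ 2 := by
  have hb0 : (0 : ℝ) < (b : ℝ) ^ j := pow_pos (by exact_mod_cast hb) _
  have hi := Iso.integrable_co_sq hb0 (tk b j k) (tower b (Aset b A al) (j + 1) M h (tk b j k))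
  rw [integral_biUnion_finset (f := fun β => ‖coef b (Aset b A al) M h j k β‖ ^ 2) S
    (fun ν _ => (hA j k).inter (measurableSet_tile b j ν)) ?_ fun ν _ => hi.integrableOn]
  · exact Finset.sum_congr rfl fun ν hν => by rw [mass, hS ν hν]
  · intro ν hν ν' hν' hne
    refine disjoint_left.2 fun β h1 h2 => hne (Prod.ext ((hS ν hν).trans (hS ν' hν').symm) ?_)
    have e1 := h1.2
    have e2 := h2.2
    simp only [tile, mem_ofPred_eq, hS ν hν, hS ν' hν'] at e1 e2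
    exact e1.symm.trans e2

theorem volume_tiles_le {b : ℕ} (hb : 1 ≤ b) (j : ℕ) (S : Finset (Node d)) {U : Set (Ph d)}
    (hU : ∀ β ∈ U, ∃ ν ∈ S, β ∈ tile b j ν) : volume U ≤ S.card := by
  calc volume U ≤ volume (⋃ ν ∈ S, tile b j ν) :=
        measure_mono fun β hβ => let ⟨ν, h1, h2⟩ := hU β hβ; mem_biUnion h1 h2
    _ ≤ ∑ ν ∈ S, volume (tile b j ν) := measure_biUnion_finset_le _ _
    _ = S.card := by simp [volume_tile hb]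

theorem setIntegral_le_card {b : ℕ} (hb : 1 ≤ b) (j : ℕ) (S : Finset (Node d)) {U : Set (Ph d)}
    (hU : ∀ β ∈ U, ∃ ν ∈ S, β ∈ tile b j ν) {f : Ph d → ℂ} {B : ℝ} (hB : 0 ≤ B)
    (hf : ∀ β ∈ U, ‖f β‖ ^ 2 ≤ B) : ∫ β in U, ‖f β‖ ^ 2 ≤ S.card * B := by
  have h1 := volume_tiles_le hb j S hU
  have h2 := norm_setIntegral_le_of_norm_le_const (μ := volume) (s := U)
    (f := fun β => ‖f β‖ ^ 2) (C := B) (h1.trans_lt (ENNReal.natCast_lt_top _))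
    fun β hβ => by rw [Real.norm_of_nonneg (by positivity)]; exact hf β hβ
  refine (le_abs_self _).trans (h2.trans ?_)
  rw [mul_comm]
  refine mul_le_mul_of_nonneg_right ?_ hB
  have := ENNReal.toReal_mono (ENNReal.natCast_ne_top _) h1
  rwa [ENNReal.toReal_natCast] at this

theorem mass_le_of_sup {b : ℕ} (hb : 1 ≤ b) (A : ℕ → ℤ → Set (Ph d)) (al : ℕ → Finset (Node d))
    (M : ℕ) (h : L2 d) (j : ℕ) (ν : Node d) {B : ℝ} (hB : 0 ≤ B)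
    (hf : ∀ β ∈ tile b j ν, ‖coef b (Aset b A al) M h j ν.1 β‖ ^ 2 ≤ B) :
    mass b A al M h j ν ≤ B := by
  have := setIntegral_le_card hb j {ν} (U := A j ν.1 ∩ tile b j ν)
    (fun β hβ => ⟨ν, Finset.mem_singleton_self _, hβ.2⟩) hB fun β hβ => hf β hβ.2
  rwa [Finset.card_singleton, Nat.cast_one, one_mul] at this

/-- near and far part of one level -/
theorem split {b : ℕ} (hb : 1 ≤ b) {A : ℕ → ℤ → Set (Ph d)} (hA : ∀ j k, MeasurableSet (A j k))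
    (al : ℕ → Finset (Node d)) {M : ℕ} (h : L2 d) {j : ℕ} (hj : j ≤ M) {k : ℤ}
    (Nr : Finset (Node d)) (hNr : Nr ⊆ al j) (hw : ∀ γ ∈ Nr, γ.1 = k) {t : ℝ}
    (ht : win b j t = k) :
    ∃ cN cF : Ph d → ℂ, MemLp cN 2 volume ∧ MemLp cF 2 volume ∧
      tower b (Aset b A al) j M h t =
        syn ((b : ℝ) ^ j) (tk b j k) cN + syn ((b : ℝ) ^ j) (tk b j k) cF ∧
      ∫ β, ‖cN β‖ ^ 2 = ∑ γ ∈ Nr, mass b A al M h j γ ∧ ∫ β, ‖cF β‖ ^ 2 ≤ ‖h‖ ^ 2 ∧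
      (∀ β, cN β ≠ 0 → ∃ γ ∈ Nr, β ∈ tile b j γ) ∧
      ∀ β, cF β ≠ 0 → ∃ γ ∈ al j, γ.1 = k ∧ γ ∉ Nr ∧ β ∈ tile b j γ := by
  have hb0 : (0 : ℝ) < (b : ℝ) ^ j := pow_pos (by exact_mod_cast hb) _
  set H := tower b (Aset b A al) (j + 1) M h (tk b j k) with hH
  set N : Set (Ph d) := ⋃ γ ∈ Nr, A j k ∩ tile b j γ with hN
  have hNm : MeasurableSet N :=
    Nr.measurableSet_biUnion fun γ _ => (hA j k).inter (measurableSet_tile b j γ)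
  have hAm := measurableSet_Aset b hA al j k
  have hsub : N ⊆ Aset b A al j k := by
    intro β hβ
    obtain ⟨γ, hγ, h1, h2⟩ := mem_iUnion₂.1 hβ
    refine ⟨h1, ?_⟩
    have : (k, idx ((b : ℝ) ^ j) (tk b j k) β) = γ := by
      have e := hw γ hγ
      simp only [tile, mem_ofPred_eq, e] at h2
      exact Prod.ext e.symm h2
    rw [mem_ofPred_eq, this]; exact hNr hγ
  have hind : ∀ {S : Set (Ph d)}, MeasurableSet S →
      ∫ β, ‖S.indicator (co ((b : ℝ) ^ j) (tk b j k) H) β‖ ^ 2 =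
        ∫ β in S, ‖co ((b : ℝ) ^ j) (tk b j k) H β‖ ^ 2 := fun {S} hS => by
    rw [← integral_indicator hS]
    refine integral_congr_ae (Filter.Eventually.of_forall fun β => ?_)
    by_cases hβ : β ∈ S <;> simp [hβ]
  refine ⟨N.indicator (co ((b : ℝ) ^ j) (tk b j k) H),
    (Aset b A al j k \ N).indicator (co ((b : ℝ) ^ j) (tk b j k) H),
    memLp_indicator_co hb0 _ hNm H, memLp_indicator_co hb0 _ (hAm.diff hNm) H, ?_, ?_, ?_,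
    fun β hβ => ?_, fun β hβ => ?_⟩
  · rw [tower_eq_loc b _ hj, lev, wt_eq_tk, ht, tower_congr hb _ M h
      (win_of_win_eq hb (Nat.le_succ j) (ht.trans (win_tk_self hb j k).symm)), ← hH]
    conv_lhs => rw [← union_diff_cancel hsub]
    exact loc_union hb0 _ hNm (hAm.diff hNm) disjoint_sdiff_right H
  · rw [hind hNm, sum_mass_eq hb hA al M h j k Nr hw]; rfl
  · rw [hind (hAm.diff hNm)]
    refine (setIntegral_le_integral (Iso.integrable_co_sq hb0 _ H)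
      (Filter.Eventually.of_forall fun β => by positivity)).trans ?_
    rw [integral_co_sq hb0]
    exact pow_le_pow_left₀ (norm_nonneg _)
      (norm_tower_le hb (measurableSet_Aset b hA al) _ _ _ _) 2
  · obtain ⟨γ, hγ, -, h2⟩ := mem_iUnion₂.1 (mem_of_indicator_ne_zero hβ)
    exact ⟨γ, hγ, h2⟩
  · obtain ⟨⟨h1, h2⟩, h3⟩ := mem_of_indicator_ne_zero hβ
    exact ⟨_, h2, rfl, fun h4 => h3 (mem_biUnion h4 ⟨h1, rfl⟩), rfl⟩

theorem near_pt {b : ℕ} (hb : 1 ≤ b) (j : ℕ) {a : ℝ} (ha : 0 < a) (t t' : ℝ) {c : Ph d → ℂ}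
    (hc : MemLp c 2 volume) (Nr : Finset (Node d)) (hs : ∀ β, c β ≠ 0 → ∃ γ ∈ Nr, β ∈ tile b j γ)
    (β : Ph d) : ‖co a t (syn ((b : ℝ) ^ j) t' c) β‖ ^ 2 ≤
      Nr.card * pre d a t ((b : ℝ) ^ j) t' ^ 2 * ∫ β', ‖c β'‖ ^ 2 := by
  have hb0 : (0 : ℝ) < (b : ℝ) ^ j := pow_pos (by exact_mod_cast hb) _
  have hm : MeasurableSet (⋃ γ ∈ Nr, tile b j γ) :=
    Nr.measurableSet_biUnion fun γ _ => measurableSet_tile b j γ
  refine (Spr.pair_le hb0 t' hc hm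
    (fun β' h' => let ⟨γ, h1, h2⟩ := hs β' h'; mem_biUnion h1 h2) (gam a t β)).trans ?_
  refine mul_le_mul_of_nonneg_right ?_ (integral_nonneg fun _ => by positivity)
  refine setIntegral_le_card hb j Nr (fun β' h' => ?_) (by positivity) fun β' _ => ?_
  · obtain ⟨γ, h1, h2⟩ := mem_iUnion₂.1 h'
    exact ⟨γ, h1, h2⟩
  · rw [co, norm_inner_symm, norm_inner_gam ha hb0]
    refine pow_le_pow_left₀ (mul_nonneg (pre_pos ha hb0 _ _).le (Real.exp_pos _).le)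
      (mul_le_of_le_one_right (pre_pos ha hb0 _ _).le (Real.exp_le_one_iff.2 ?_)) 2
    nlinarith [Qf_nonneg a t ((b : ℝ) ^ j) t' (β - β'), Real.pi_pos]

theorem norm_add_sq_le_two (x y : ℂ) : ‖x + y‖ ^ 2 ≤ 2 * ‖x‖ ^ 2 + 2 * ‖y‖ ^ 2 := by
  have := norm_add_le x y
  nlinarith [norm_nonneg (x + y), norm_nonneg x, norm_nonneg y, sq_nonneg (‖x‖ - ‖y‖)]

theorem point_bound {b : ℕ} (hb : 1 ≤ b) {A : ℕ → ℤ → Set (Ph d)}
    (hA : ∀ j k, MeasurableSet (A j k)) (al : ℕ → Finset (Node d)) {M : ℕ} (h : L2 d) {j : ℕ}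
    (hj : j ≤ M) {k : ℤ} (Nr : Finset (Node d)) (hNr : Nr ⊆ al j) (hw : ∀ γ ∈ Nr, γ.1 = k) {t : ℝ}
    (ht : win b j t = k) {a : ℝ} (ha : 0 < a) (β : Ph d) {s μ : ℝ}
    (hμ : ∀ γ ∈ Nr, mass b A al M h j γ ≤ μ)
    (hfar : ∀ γ ∈ al j, γ.1 = k → γ ∉ Nr → ∀ β' ∈ tile b j γ,
      s ≤ Qf a t ((b : ℝ) ^ j) (tk b j γ.1) (β - β')) :
    ‖co a t (tower b (Aset b A al) j M h t) β‖ ^ 2 ≤
      2 * (Nr.card : ℝ) ^ 2 * pre d a t ((b : ℝ) ^ j) (tk b j k) ^ 2 * μ +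
        2 * 2 ^ d * Real.exp (-Real.pi * s) * ‖h‖ ^ 2 := by
  have hb0 : (0 : ℝ) < (b : ℝ) ^ j := pow_pos (by exact_mod_cast hb) _
  obtain ⟨cN, cF, h1, h2, h3, h4, h5, h6, h7⟩ := split hb hA al h hj Nr hNr hw ht
  rw [h3, Iso.co_add, Pi.add_apply]
  refine (norm_add_sq_le_two _ _).trans (add_le_add ?_ ?_)
  · have e1 := near_pt hb j ha t (tk b j k) h1 Nr h6 β
    have e2 := Finset.sum_le_card_nsmul Nr _ μ hμ
    rw [nsmul_eq_mul, ← h4] at e2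
    have e3 := mul_le_mul_of_nonneg_left e2
      (show 0 ≤ Nr.card * pre d a t ((b : ℝ) ^ j) (tk b j k) ^ 2 by positivity)
    nlinarith
  · have e1 := norm_co_syn_far ha hb0 t (tk b j k) h2 β (s := s) fun β' h' => by
      obtain ⟨γ, g1, g2, g3, g4⟩ := h7 β' h'
      have := hfar γ g1 g2 g3 β' g4
      rwa [g2] at this
    have e2 := mul_le_mul_of_nonneg_left h5
      (show 0 ≤ 2 ^ d * Real.exp (-Real.pi * s) by positivity)
    nlinarith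

theorem win_succ_tk {b : ℕ} (hb : 1 ≤ b) (j : ℕ) (k : ℤ) :
    win b (j + 1) (tk b j k) = k / ((b ^ 2 : ℕ) : ℤ) := by
  rw [win_tk hb (Nat.le_succ j), Nat.succ_sub (le_refl j), Nat.sub_self]

/-- fact (1) -/
theorem fact_one {b : ℕ} (hb : 1 ≤ b) {A : ℕ → ℤ → Set (Ph d)} (hA : ∀ j k, MeasurableSet (A j k))
    (al : ℕ → Finset (Node d)) {M : ℕ} (h : L2 d) {j : ℕ} (hj : j < M) (ν : Node d)
    (Nr : Finset (Node d)) (hNr : Nr ⊆ al (j + 1)) (hw : ∀ γ ∈ Nr, γ.1 = ν.1 / ((b ^ 2 : ℕ) : ℤ))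
    {s μ : ℝ} (hμ : ∀ γ ∈ Nr, mass b A al M h (j + 1) γ ≤ μ) (hμ0 : 0 ≤ μ)
    (hfar : ∀ γ ∈ al (j + 1), γ.1 = ν.1 / ((b ^ 2 : ℕ) : ℤ) → γ ∉ Nr →
      ∀ β ∈ tile b j ν, ∀ β' ∈ tile b (j + 1) γ,
        s ≤ Qf ((b : ℝ) ^ j) (tk b j ν.1) ((b : ℝ) ^ (j + 1)) (tk b (j + 1) γ.1) (β - β')) :
    mass b A al M h j ν ≤ 2 * (Nr.card : ℝ) ^ 2 * (2 / b) ^ d * μ +
      2 * 2 ^ d * Real.exp (-Real.pi * s) * ‖h‖ ^ 2 := by
  have hb1 : (0 : ℝ) < b := by exact_mod_cast hb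
  refine mass_le_of_sup hb A al M h j ν (by positivity) fun β hβ => ?_
  refine (point_bound hb hA al h hj Nr hNr hw (win_succ_tk hb j ν.1) (pow_pos hb1 j) β hμ
    fun γ h1 h2 h3 β' h4 => hfar γ h1 h2 h3 β hβ β' h4).trans ?_
  have := pre_sq_le (d := d) (pow_pos hb1 j) (pow_pos hb1 (j + 1)) (tk b j ν.1)
    (tk b (j + 1) (ν.1 / ((b ^ 2 : ℕ) : ℤ)))
  rw [show 2 * (b : ℝ) ^ j / (b : ℝ) ^ (j + 1) = 2 / b by rw [pow_succ]; field_simp] at this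
  gcongr

theorem two_gen {b : ℕ} (hb : 1 ≤ b) {A : ℕ → ℤ → Set (Ph d)} (hA : ∀ j k, MeasurableSet (A j k))
    (al : ℕ → Finset (Node d)) {M : ℕ} (h : L2 d) {j : ℕ} (hj : j < M) (k : ℤ)
    (S : Finset (Node d)) (hS : ∀ ν ∈ S, ν.1 = k)
    (Nr : Finset (Node d)) (hNr : Nr ⊆ al (j + 1)) (hw : ∀ γ ∈ Nr, γ.1 = k / ((b ^ 2 : ℕ) : ℤ))
    {s : ℝ}
    (hfar : ∀ ν ∈ S, ∀ γ ∈ al (j + 1), γ.1 = k / ((b ^ 2 : ℕ) : ℤ) → γ ∉ Nr →
      ∀ β ∈ tile b j ν, ∀ β' ∈ tile b (j + 1) γ,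
        s ≤ Qf ((b : ℝ) ^ j) (tk b j k) ((b : ℝ) ^ (j + 1)) (tk b (j + 1) γ.1) (β - β'))
    {B : ℝ} (hB : ∀ (c : Ph d → ℂ) (U : Set (Ph d)) (t' : ℝ), MemLp c 2 volume → MeasurableSet U →
      (∀ β ∈ U, ∃ ν ∈ S, β ∈ tile b j ν) → (∀ β, c β ≠ 0 → ∃ γ ∈ Nr, β ∈ tile b (j + 1) γ) →
      ∫ β in U, ‖co ((b : ℝ) ^ j) (tk b j k) (syn ((b : ℝ) ^ (j + 1)) t' c) β‖ ^ 2 ≤
        B * ∫ β, ‖c β‖ ^ 2) :
    ∑ ν ∈ S, mass b A al M h j ν ≤ 2 * B * ∑ γ ∈ Nr, mass b A al M h (j + 1) γ +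
      2 * S.card * 2 ^ d * Real.exp (-Real.pi * s) * ‖h‖ ^ 2 := by
  have hb1 : (0 : ℝ) < b := by exact_mod_cast hb
  have ha := pow_pos hb1 j
  obtain ⟨cN, cF, h1, h2, h3, h4, h5, h6, h7⟩ :=
    split hb hA al h hj Nr hNr hw (win_succ_tk hb j k)
  set U : Set (Ph d) := ⋃ ν ∈ S, A j k ∩ tile b j ν
  have hUm : MeasurableSet U :=
    S.measurableSet_biUnion fun ν _ => (hA j k).inter (measurableSet_tile b j ν)
  have hU : ∀ β ∈ U, ∃ ν ∈ S, β ∈ tile b j ν := fun β hβ =>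
    let ⟨ν, g1, g2⟩ := mem_iUnion₂.1 hβ; ⟨ν, g1, g2.2⟩
  set t' := tk b (j + 1) (k / ((b ^ 2 : ℕ) : ℤ))
  have i1 := Iso.integrable_co_sq ha (tk b j k) (syn ((b : ℝ) ^ (j + 1)) t' cN)
  have i2 := Iso.integrable_co_sq ha (tk b j k) (syn ((b : ℝ) ^ (j + 1)) t' cF)
  have e1 := hB cN U t' h1 hUm hU h6
  have e2 := setIntegral_le_card hb j S hU
    (f := co ((b : ℝ) ^ j) (tk b j k) (syn ((b : ℝ) ^ (j + 1)) t' cF))
    (B := 2 ^ d * Real.exp (-Real.pi * s) * ‖h‖ ^ 2) (by positivity) fun β hβ => by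
      obtain ⟨ν, g1, g2⟩ := hU β hβ
      refine (norm_co_syn_far ha (pow_pos hb1 _) _ t' h2 β (s := s) fun β' h' => ?_).trans
        (mul_le_mul_of_nonneg_left h5 (by positivity))
      obtain ⟨γ, f1, f2, f3, f4⟩ := h7 β' h'
      have := hfar ν g1 γ f1 f2 f3 β g2 β' f4
      rwa [f2] at this
  rw [sum_mass_eq hb hA al M h j k S hS, ← h4]
  calc ∫ β in U, ‖coef b (Aset b A al) M h j k β‖ ^ 2
      ≤ ∫ β in U, (2 * ‖co ((b : ℝ) ^ j) (tk b j k) (syn ((b : ℝ) ^ (j + 1)) t' cN) β‖ ^ 2 +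
          2 * ‖co ((b : ℝ) ^ j) (tk b j k) (syn ((b : ℝ) ^ (j + 1)) t' cF) β‖ ^ 2) := by
        refine integral_mono_of_nonneg (Filter.Eventually.of_forall fun β => by positivity)
          ((i1.const_mul 2).add (i2.const_mul 2)).integrableOn
          (Filter.Eventually.of_forall fun β => ?_)
        simp only [coef]
        rw [h3, Iso.co_add, Pi.add_apply]
        exact norm_add_sq_le_two _ _
    _ = 2 * (∫ β in U, ‖co ((b : ℝ) ^ j) (tk b j k) (syn ((b : ℝ) ^ (j + 1)) t' cN) β‖ ^ 2) +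
          2 * ∫ β in U, ‖co ((b : ℝ) ^ j) (tk b j k) (syn ((b : ℝ) ^ (j + 1)) t' cF) β‖ ^ 2 := by
        rw [integral_add (i1.const_mul 2).integrableOn (i2.const_mul 2).integrableOn,
          integral_const_mul, integral_const_mul]
    _ ≤ _ := by nlinarith

/-- fact (2) -/
theorem fact_two {b : ℕ} (hb : 1 ≤ b) {A : ℕ → ℤ → Set (Ph d)} (hA : ∀ j k, MeasurableSet (A j k))
    (al : ℕ → Finset (Node d)) {M : ℕ} (h : L2 d) {j : ℕ} (hj : j < M) (k : ℤ)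
    (S : Finset (Node d)) (hS : ∀ ν ∈ S, ν.1 = k)
    (Nr : Finset (Node d)) (hNr : Nr ⊆ al (j + 1)) (hw : ∀ γ ∈ Nr, γ.1 = k / ((b ^ 2 : ℕ) : ℤ))
    {s : ℝ}
    (hfar : ∀ ν ∈ S, ∀ γ ∈ al (j + 1), γ.1 = k / ((b ^ 2 : ℕ) : ℤ) → γ ∉ Nr →
      ∀ β ∈ tile b j ν, ∀ β' ∈ tile b (j + 1) γ,
        s ≤ Qf ((b : ℝ) ^ j) (tk b j k) ((b : ℝ) ^ (j + 1)) (tk b (j + 1) γ.1) (β - β')) :
    ∑ ν ∈ S, mass b A al M h j ν ≤ 2 * ∑ γ ∈ Nr, mass b A al M h (j + 1) γ +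
      2 * S.card * 2 ^ d * Real.exp (-Real.pi * s) * ‖h‖ ^ 2 := by
  have hb1 : (0 : ℝ) < b := by exact_mod_cast hb
  have := two_gen hb hA al h hj k S hS Nr hNr hw hfar (B := 1) fun c U t' hc _ _ _ => by
    refine (setIntegral_le_integral (Iso.integrable_co_sq (pow_pos hb1 j) _ _)
      (Filter.Eventually.of_forall fun β => by positivity)).trans ?_
    rw [integral_co_sq (pow_pos hb1 j), one_mul]
    exact norm_syn_sq_le (pow_pos hb1 _) _ hc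
  rwa [mul_one] at this

/-- fact (2') -/
theorem fact_spread {b : ℕ} (hb : 1 ≤ b) {A : ℕ → ℤ → Set (Ph d)}
    (hA : ∀ j k, MeasurableSet (A j k))
    (al : ℕ → Finset (Node d)) {M : ℕ} (h : L2 d) {j : ℕ} (hj : j < M) (k : ℤ)
    (S : Finset (Node d)) (hS : ∀ ν ∈ S, ν.1 = k)
    (Nr : Finset (Node d)) (hNr : Nr ⊆ al (j + 1)) (hw : ∀ γ ∈ Nr, γ.1 = k / ((b ^ 2 : ℕ) : ℤ))
    {s : ℝ}
    (hfar : ∀ ν ∈ S, ∀ γ ∈ al (j + 1), γ.1 = k / ((b ^ 2 : ℕ) : ℤ) → γ ∉ Nr →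
      ∀ β ∈ tile b j ν, ∀ β' ∈ tile b (j + 1) γ,
        s ≤ Qf ((b : ℝ) ^ j) (tk b j k) ((b : ℝ) ^ (j + 1)) (tk b (j + 1) γ.1) (β - β'))
    (U : Submodule ℝ (V d)) (ζ₀ u : V d) {w th : ℝ} (hw' : 1 / (b : ℝ) ^ (j + 1) ≤ w) (hth : 0 < th)
    (hpos : ∀ ν ∈ S, ∀ β ∈ tile b j ν, ‖U.starProjection (pos (tk b j k) β - u)‖ ≤ th)
    (hfr : ∀ γ ∈ Nr, ∀ β' ∈ tile b (j + 1) γ, ‖U.starProjection (β'.2 - ζ₀)‖ ≤ w) :
    ∑ ν ∈ S, mass b A al M h j ν ≤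
      2000 * 2 ^ d * (2 * th * w) ^ (Module.finrank ℝ U) * ∑ γ ∈ Nr, mass b A al M h (j + 1) γ +
      2 * S.card * 2 ^ d * Real.exp (-Real.pi * s) * ‖h‖ ^ 2 := by
  have hb1 : (0 : ℝ) < b := by exact_mod_cast hb
  have := two_gen hb hA al h hj k S hS Nr hNr hw hfar
    (B := 1000 * 2 ^ d * (2 * th * w) ^ (Module.finrank ℝ U)) fun c U' t' hc hU h1 h2 =>
      spread U (pow_pos hb1 j) (pow_pos hb1 _) _ t' hc ζ₀ u hw' hth
        (fun β' h' => let ⟨γ, g1, g2⟩ := h2 β' h'; hfr γ g1 β' g2) hU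
        fun β hβ => let ⟨ν, g1, g2⟩ := h1 β hβ; hpos ν g1 β g2
  refine this.trans (le_of_eq ?_)
  ring

/-- bottom of the tower -/
theorem fact_bottom {b : ℕ} (hb : 1 ≤ b) {A : ℕ → ℤ → Set (Ph d)}
    (hA : ∀ j k, MeasurableSet (A j k)) (al : ℕ → Finset (Node d)) (M : ℕ) (h : L2 d)
    (z : V d × ℝ) (Nr : Finset (Node d)) (hNr : Nr ⊆ al 0) (hw : ∀ γ ∈ Nr, γ.1 = win b 0 z.2)
    {s μ : ℝ} (hμ : ∀ γ ∈ Nr, mass b A al M h 0 γ ≤ μ) (hμ0 : 0 ≤ μ)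
    (hfar : ∀ γ ∈ al 0, γ.1 = win b 0 z.2 → γ ∉ Nr → ∀ β' ∈ tile b 0 γ,
        s ≤ Qf 1 z.2 1 (tk b 0 γ.1) ((z.1, 0) - β')) :
    ‖inner ℂ (pt z) (tower b (Aset b A al) 0 M h z.2)‖ ^ 2 ≤ 2 * (Nr.card : ℝ) ^ 2 * μ +
      2 * 2 ^ d * Real.exp (-Real.pi * s) * ‖h‖ ^ 2 := by
  refine (point_bound hb hA al h (Nat.zero_le M) Nr hNr hw rfl one_pos (z.1, 0) hμ
    (s := s) (by simpa using hfar)).trans ?_
  have h1 := pre_le_one (d := d) one_pos (show (0 : ℝ) < (b : ℝ) ^ 0 by simp) z.2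
    (tk b 0 (win b 0 z.2))
  have h2 := pre_pos (d := d) one_pos (show (0 : ℝ) < (b : ℝ) ^ 0 by simp) z.2
    (tk b 0 (win b 0 z.2))
  have h3 : pre d 1 z.2 ((b : ℝ) ^ 0) (tk b 0 (win b 0 z.2)) ^ 2 ≤ 1 := pow_le_one₀ h2.le h1
  have h4 : 0 ≤ 2 * (Nr.card : ℝ) ^ 2 * μ := by positivity
  nlinarith

/-- coefficients away from the support of `h` -/
theorem co_far_supp {a : ℝ} (ha : 0 < a) (t : ℝ) (h : L2 d) (β : Ph d) {ρ : ℝ} (hρ : 0 ≤ ρ)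
    (hs : ∀ᵐ ξ : V d, ‖ξ - β.2‖ < ρ → h ξ = 0) :
    ‖co a t h β‖ ^ 2 ≤ 2 ^ d * Real.exp (-Real.pi * a ^ 2 * ρ ^ 2) * ‖h‖ ^ 2 := by
  have hpi := Real.pi_pos
  set S : Set (V d) := {ξ | ρ ≤ ‖ξ - β.2‖}
  have hS : MeasurableSet S := (isClosed_le continuous_const (by fun_prop)).measurableSet
  have hg : MemLp (S.indicator (gamF a t β)) 2 volume := (memLp_gamF ha t β).indicator hS
  have h1 : co a t h β = inner ℂ (hg.toLp _) h := by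
    rw [co_eq ha, L2.inner_def]
    refine integral_congr_ae ?_
    filter_upwards [hs, hg.coeFn_toLp] with ξ e1 e2
    rw [e2]
    by_cases hξ : ξ ∈ S
    · rw [indicator_of_mem hξ]; simp [mul_comm]
    · rw [e1 (not_le.1 hξ)]; simp
  have h2 : ‖hg.toLp _‖ ^ 2 ≤ 2 ^ d * Real.exp (-Real.pi * a ^ 2 * ρ ^ 2) := by
    rw [← Iso.integral_norm_sq_L2]
    have hi := (Iso.integrable_gauss (d := d) (b := Real.pi * a ^ 2) (by positivity)).comp_sub_right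
      β.2
    calc ∫ ξ, ‖(hg.toLp _ : V d → ℂ) ξ‖ ^ 2
        ≤ ∫ ξ, (2 * a ^ 2) ^ ((d : ℝ) / 2) * Real.exp (-Real.pi * a ^ 2 * ρ ^ 2) *
            Real.exp (-(Real.pi * a ^ 2) * ‖ξ - β.2‖ ^ 2) := by
          refine integral_mono_of_nonneg (Filter.Eventually.of_forall fun _ => by positivity)
            (hi.const_mul _) ?_
          filter_upwards [hg.coeFn_toLp] with ξ e2
          rw [e2]
          by_cases hξ : ξ ∈ S
          · rw [indicator_of_mem hξ, Iso.sq_norm_gamF,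
              mul_assoc ((2 * a ^ 2) ^ ((d : ℝ) / 2)), ← Real.exp_add]
            refine mul_le_mul_of_nonneg_left (Real.exp_le_exp.2 ?_) (by positivity)
            have : ρ ^ 2 ≤ ‖ξ - β.2‖ ^ 2 := pow_le_pow_left₀ hρ hξ 2
            nlinarith [mul_le_mul_of_nonneg_left this (show 0 ≤ Real.pi * a ^ 2 by positivity)]
          · rw [indicator_of_notMem hξ, norm_zero, zero_pow two_ne_zero]; positivity
      _ = (2 * a ^ 2) ^ ((d : ℝ) / 2) * Real.exp (-Real.pi * a ^ 2 * ρ ^ 2) *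
            (Real.pi / (Real.pi * a ^ 2)) ^ ((d : ℝ) / 2) := by
          rw [integral_const_mul, integral_sub_right_eq_self
            (fun ξ : V d => Real.exp (-(Real.pi * a ^ 2) * ‖ξ‖ ^ 2)),
            Iso.integral_gauss (by positivity)]
      _ = (2 : ℝ) ^ ((d : ℝ) / 2) * Real.exp (-Real.pi * a ^ 2 * ρ ^ 2) := by
          rw [mul_right_comm, ← Real.mul_rpow (by positivity) (by positivity)]
          congr 2; field_simp
      _ ≤ _ := by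
          refine mul_le_mul_of_nonneg_right ?_ (Real.exp_pos _).le
          rw [← Real.rpow_natCast]
          exact Real.rpow_le_rpow_of_exponent_le one_le_two
            (by have : (0 : ℝ) ≤ d := Nat.cast_nonneg d; linarith)
  rw [h1]
  refine (pow_le_pow_left₀ (norm_nonneg _) (norm_inner_le_norm _ _) 2).trans ?_
  rw [mul_pow]
  exact mul_le_mul_of_nonneg_right h2 (by positivity)

/-- top level nodes of positive mass have frequencies near the support of `h` -/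
theorem mass_top_far {b : ℕ} (hb : 1 ≤ b) (A : ℕ → ℤ → Set (Ph d))
    (al : ℕ → Finset (Node d)) (M : ℕ) (h : L2 d) (ν : Node d) {ρ : ℝ} (hρ : 0 ≤ ρ)
    (hs : ∀ β ∈ tile b M ν, ∀ᵐ ξ : V d, ‖ξ - β.2‖ < ρ → h ξ = 0) :
    mass b A al M h M ν ≤ 2 ^ d * Real.exp (-Real.pi * ((b : ℝ) ^ M) ^ 2 * ρ ^ 2) * ‖h‖ ^ 2 := by
  refine mass_le_of_sup hb A al M h M ν (by positivity) fun β hβ => ?_
  rw [coef, tower_top]
  exact co_far_supp (pow_pos (by exact_mod_cast hb) _) _ h β hρ (hs β hβ)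

end Crest.Agent.N76.T
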