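import Crest.Agent.N76.T.Tile

/-! # Row 76 (S0101): word decomposition of a Gaussian tower with a generic statistic (helper13). -/

set_option autoImplicit false

open MeasureTheory Set Metric
open scoped ENNReal RealInnerProductSpace

namespace Crest.Agent.N76.T

open Crest.Agent.N76.Red (V)
open Crest.Agent.N76.G

variable {d : ℕ}

theorem wt_eq_tk (b j : ℕ) (t : ℝ) : wt b j t = tk b j (win b j t) := rfl

theorem wt_le {b : ℕ} (hb : 1 ≤ b) (j : ℕ) (t : ℝ) :
    wt b j t ≤ t ∧ t < wt b j t + (b : ℝ) ^ (2 * j) := by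
  have hb' : (0 : ℝ) < (b : ℝ) ^ (2 * j) := pow_pos (by exact_mod_cast hb) _
  unfold wt win
  constructor
  · rw [← le_div_iff₀ hb']; exact Int.floor_le _
  · have := Int.lt_floor_add_one (t / (b : ℝ) ^ (2 * j))
    rw [div_lt_iff₀ hb'] at this
    linarith

theorem win_tk_self {b : ℕ} (hb : 1 ≤ b) (j : ℕ) (k : ℤ) : win b j (tk b j k) = k := by
  have hb' : (0 : ℝ) < (b : ℝ) ^ (2 * j) := pow_pos (by exact_mod_cast hb) _
  unfold win tk
  rw [mul_div_cancel_right₀ _ hb'.ne', Int.floor_intCast]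

theorem wt_succ_le {b : ℕ} (hb : 1 ≤ b) (j : ℕ) (t : ℝ) : wt b (j + 1) t ≤ wt b j t := by
  have h1 : win b (j + 1) (wt b j t) = win b (j + 1) t :=
    win_of_win_eq hb (Nat.le_succ j) (win_tk_self hb j _)
  have h2 := (wt_le hb (j + 1) (wt b j t)).1
  rwa [wt, h1] at h2

/-- width of the frame below level `j` -/
noncomputable def fa (b : ℕ) : ℕ → ℝ
  | 0 => 1
  | j + 1 => (b : ℝ) ^ j

/-- time of the frame below level `j` -/
noncomputable def ft (b : ℕ) (t : ℝ) : ℕ → ℝ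
  | 0 => t
  | j + 1 => wt b j t

theorem fa_facts {b : ℕ} (hb : 1 ≤ b) (j : ℕ) (t : ℝ) :
    0 < fa b j ∧ fa b j ≤ (b : ℝ) ^ j ∧ (b : ℝ) ^ j / fa b j ≤ b ∧
      |ft b t j - wt b j t| ≤ ((b : ℝ) ^ j) ^ 2 := by
  have hb1 : (1 : ℝ) ≤ b := by exact_mod_cast hb
  have hb0 : (0 : ℝ) < b := by linarith
  have h1 := wt_le hb j t
  rw [← pow_mul, mul_comm j 2]
  cases j with
  | zero =>
    refine ⟨one_pos, by simp [fa], by simpa [fa] using hb1, ?_⟩
    rw [ft, abs_le]; constructor <;> nlinarith [h1.1, h1.2, pow_pos hb0 (2 * 0)]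
  | succ j =>
    refine ⟨pow_pos hb0 _, pow_le_pow_right₀ hb1 (Nat.le_succ j), ?_, ?_⟩
    · rw [fa, pow_succ, mul_div_cancel_left₀ _ (pow_pos hb0 j).ne']
    · have h2 := wt_succ_le hb j t
      have h3 := (wt_le hb j t).1
      rw [ft, abs_le]; constructor <;> nlinarith [h1.1, h1.2, pow_pos hb0 (2 * (j + 1))]

theorem sup_tw {b : ℕ} (hb : 1 ≤ b) {A : ℕ → ℤ → Set (Ph d)} (hA : ∀ j k, MeasurableSet (A j k))
    (t : ℝ) (j : ℕ) : ∀ (H : L2 d) (s : ℝ), 0 ≤ s → (∀ β, ‖co (fa b j) (ft b t j) H β‖ ≤ s) →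
      ∀ β, ‖co 1 t (tw (lev b A t) 0 j H) β‖ ≤ ((4 * b) ^ d) ^ j * s := by
  induction j with
  | zero => intro H s _ h β; simpa [tw, fa, ft] using h β
  | succ j ih =>
    intro H s hs h β
    obtain ⟨h1, h2, h3, h4⟩ := fa_facts hb j t
    have hb0 : (0 : ℝ) < (b : ℝ) ^ j := h1.trans_le h2
    rw [tw_succ', zero_add, pow_succ, mul_assoc]
    refine ih _ _ (by positivity) (fun β' => ?_) β
    refine (sup_step h1 h2 h4 (memLp_indicator_co hb0 _ (hA _ _) H) hs (fun β'' => ?_) β').trans ?_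
    · exact (norm_indicator_le_norm_self _ _).trans (h β'')
    · rw [mul_div_assoc]; gcongr

theorem four_le_C0 : 4 ≤ C0 := by
  have := Real.one_le_exp (show 0 ≤ 12 * Real.pi by positivity)
  unfold C0; linarith

theorem tiny_bound {b : ℕ} (hb : 1 ≤ b) {A : ℕ → ℤ → Set (Ph d)}
    (hA : ∀ j k, MeasurableSet (A j k)) (z : V d × ℝ) {j M : ℕ} (hj : j ≤ M) (H : L2 d)
    {T : Set (Ph d)} (hT : MeasurableSet T) {μ : ℝ} (hμ0 : 0 ≤ μ)
    (hμ : ∀ q : Cell d, ∫ β in T ∩ {β | idx ((b : ℝ) ^ j) (wt b j z.2) β = q},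
      ‖co ((b : ℝ) ^ j) (wt b j z.2) H β‖ ^ 2 ≤ μ) :
    ‖inner ℂ (pt z) (tw (lev b A z.2) 0 j (loc ((b : ℝ) ^ j) (wt b j z.2) T H))‖ ^ 2 ≤
      (C0 * b) ^ (d * (2 * M + 1)) * μ := by
  obtain ⟨h1, h2, h3, h4⟩ := fa_facts hb j z.2
  have hb0 : (0 : ℝ) < (b : ℝ) ^ j := h1.trans_le h2
  have hb1 : (1 : ℝ) ≤ b := by exact_mod_cast hb
  have hC := four_le_C0
  have h5 : ∀ β, ‖co (fa b j) (ft b z.2 j) (loc ((b : ℝ) ^ j) (wt b j z.2) T H) β‖ ≤
      Real.sqrt ((C0 * b) ^ d * μ) := fun β => by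
    refine Real.le_sqrt_of_sq_le ?_
    refine (tile_sup h1 h2 h4 (memLp_indicator_co hb0 _ hT H)
      ((continuous_co' hb0 _ H).measurable.indicator hT) hμ0 (fun q => ?_) β).trans ?_
    · refine le_trans (le_of_eq ?_) (hμ q)
      rw [inter_comm, ← setIntegral_indicator hT]
      refine integral_congr_ae (Filter.Eventually.of_forall fun β' => ?_)
      by_cases h : β' ∈ T <;> simp [h]
    · rw [mul_div_assoc]; gcongr
  have h6 := sup_tw hb hA z.2 j _ _ (Real.sqrt_nonneg _) h5 (z.1, 0)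
  refine (pow_le_pow_left₀ (norm_nonneg _) h6 2).trans ?_
  rw [mul_pow, Real.sq_sqrt (by positivity), ← mul_assoc]
  refine mul_le_mul_of_nonneg_right ?_ hμ0
  calc (((4 * (b : ℝ)) ^ d) ^ j) ^ 2 * (C0 * b) ^ d ≤ (((C0 * b) ^ d) ^ j) ^ 2 * (C0 * b) ^ d := by
        gcongr
    _ = (C0 * b) ^ (d * (2 * j + 1)) := by rw [← pow_mul, ← pow_mul, ← pow_add]; congr 1; ring
    _ ≤ _ := pow_le_pow_right₀ (by nlinarith) (by gcongr)

theorem tw_add {b : ℕ} (hb : 1 ≤ b) {A : ℕ → ℤ → Set (Ph d)} (hA : ∀ j k, MeasurableSet (A j k))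
    (t : ℝ) (m : ℕ) : ∀ (i : ℕ) (H H' : L2 d),
      tw (lev b A t) i m (H + H') = tw (lev b A t) i m H + tw (lev b A t) i m H' := by
  induction m with
  | zero => intro i H H'; rfl
  | succ m ih =>
    intro i H H'
    rw [tw, tw, tw, ih]
    exact loc_add (pow_pos (by exact_mod_cast hb) i) _ (hA _ _) _ _

theorem tw_sum {b : ℕ} (hb : 1 ≤ b) {A : ℕ → ℤ → Set (Ph d)} (hA : ∀ j k, MeasurableSet (A j k))
    (t : ℝ) (i m : ℕ) {κ : Type*} (s : Finset κ) (H : κ → L2 d) :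
    tw (lev b A t) i m (∑ o ∈ s, H o) = ∑ o ∈ s, tw (lev b A t) i m (H o) :=
  map_sum (AddMonoidHom.mk' (tw (lev b A t) i m) (tw_add hb hA t m i)) H s

theorem loc_partition {a : ℝ} (ha : 0 < a) (t : ℝ) {A : Set (Ph d)} (hA : MeasurableSet A)
    {O : Type*} [Fintype O] (cl : Cell d → O) (H : L2 d) :
    loc a t A H = ∑ o, loc a t (A ∩ {β | cl (idx a t β) = o}) H := by
  classical
  unfold loc
  rw [← syn_sum ha t _ (c := fun o => (A ∩ {β | cl (idx a t β) = o}).indicator (co a t H))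
    fun o _ => memLp_indicator_co ha t (hA.inter (measurableSet_idx a t {c | cl c = o})) H]
  congr 1
  funext β
  rw [Finset.sum_apply, Finset.sum_eq_single (cl (idx a t β))]
  · by_cases h : β ∈ A
    · rw [indicator_of_mem h]
      exact (indicator_of_mem (s := A ∩ {β' | cl (idx a t β') = cl (idx a t β)}) ⟨h, rfl⟩ _).symm
    · rw [indicator_of_notMem h, indicator_of_notMem fun h' => h h'.1]
  · exact fun o _ ho => indicator_of_notMem (fun h' => ho h'.2.symm) _
  · simp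

theorem tower_Aset_congr (b : ℕ) (A : ℕ → ℤ → Set (Ph d)) {al al' : ℕ → Finset (Node d)} {i : ℕ}
    (hal : ∀ l, i ≤ l → al l = al' l) (M : ℕ) (h : L2 d) (t : ℝ) :
    tower b (Aset b A al) i M h t = tower b (Aset b A al') i M h t := by
  refine tw_congr _ _ (fun l hl => ?_) h
  unfold lev Aset
  rw [hal l hl]

theorem mass_congr (b : ℕ) (A : ℕ → ℤ → Set (Ph d)) {al al' : ℕ → Finset (Node d)} {i : ℕ}
    (hal : ∀ l, i < l → al l = al' l) (M : ℕ) (h : L2 d) (ν : Node d) :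
    mass b A al M h i ν = mass b A al' M h i ν := by
  unfold mass coef
  rw [tower_Aset_congr b A (i := i + 1) (fun l hl => hal l hl)]

theorem sum_mass_le' {b : ℕ} (hb : 1 ≤ b) {A : ℕ → ℤ → Set (Ph d)}
    (hA : ∀ j k, MeasurableSet (A j k)) (al : ℕ → Finset (Node d)) (M : ℕ) (h : L2 d) (j : ℕ)
    (k : ℤ) (S : Finset (Node d)) (hS : ∀ ν ∈ S, ν.1 = k) :
    ∑ ν ∈ S, mass b A al M h j ν ≤ ‖h‖ ^ 2 := by
  have hb0 : (0 : ℝ) < (b : ℝ) ^ j := pow_pos (by exact_mod_cast hb) _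
  have hi := Iso.integrable_co_sq hb0 (tk b j k) (tower b (Aset b A al) (j + 1) M h (tk b j k))
  have h1 : ∑ ν ∈ S, mass b A al M h j ν =
      ∫ β in ⋃ ν ∈ S, A j k ∩ tile b j ν, ‖coef b (Aset b A al) M h j k β‖ ^ 2 := by
    rw [integral_biUnion_finset (f := fun β => ‖coef b (Aset b A al) M h j k β‖ ^ 2) S
      (fun ν _ => (hA j k).inter (measurableSet_tile b j ν)) ?_ fun ν _ => hi.integrableOn]
    · exact Finset.sum_congr rfl fun ν hν => by rw [mass, hS ν hν]
    · intro ν hν ν' hν' hne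
      refine disjoint_left.2 fun β h1 h2 => hne (Prod.ext ((hS ν hν).trans (hS ν' hν').symm) ?_)
      have e1 := h1.2
      have e2 := h2.2
      simp only [tile, mem_ofPred_eq, hS ν hν, hS ν' hν'] at e1 e2
      exact e1.symm.trans e2
  rw [h1]
  refine (setIntegral_le_integral hi (Filter.Eventually.of_forall fun β => by positivity)).trans ?_
  rw [integral_co_sq hb0]
  exact pow_le_pow_left₀ (norm_nonneg _)
    (norm_tower_le hb (measurableSet_Aset b hA al) _ _ _ _) 2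

theorem finite_heavy {b : ℕ} (hb : 1 ≤ b) {A : ℕ → ℤ → Set (Ph d)}
    (hA : ∀ j k, MeasurableSet (A j k)) (al : ℕ → Finset (Node d)) (M : ℕ) (h : L2 d) (j : ℕ)
    (Wn : Finset ℤ) {μ : ℝ} (hμ : 0 < μ) :
    {ν : Node d | ν.1 ∈ Wn ∧ μ ≤ mass b A al M h j ν}.Finite := by
  have h1 : ∀ k : ℤ, {ν : Node d | ν.1 = k ∧ μ ≤ mass b A al M h j ν}.Finite := fun k => by
    by_contra hinf
    obtain ⟨n, hn⟩ := exists_nat_gt (‖h‖ ^ 2 / μ)
    obtain ⟨S, hS, hc⟩ := Set.Infinite.exists_subset_card_eq hinf n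
    have h2 := sum_mass_le' hb hA al M h j k S fun ν hν => (hS hν).1
    have h3 := Finset.card_nsmul_le_sum S _ μ fun ν hν => (hS hν).2
    rw [hc, nsmul_eq_mul] at h3
    rw [div_lt_iff₀ hμ] at hn
    linarith
  refine (Set.Finite.biUnion Wn.finite_toSet fun k _ => h1 k).subset fun ν hν => ?_
  exact mem_biUnion hν.1 ⟨rfl, hν.2⟩

theorem exists_dyadic {L : ℕ} {q : ℝ} (h1 : 1 ≤ q) (h2 : q ≤ 2 ^ L) :
    ∃ n : Fin (L + 1), (2 : ℝ) ^ (n : ℕ) ≤ q ∧ q ≤ 2 * 2 ^ (n : ℕ) := by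
  obtain ⟨n, hn1, hn2⟩ := exists_nat_pow_near h1 (one_lt_two (α := ℝ))
  have : n ≤ L := (pow_le_pow_iff_right₀ (one_lt_two (α := ℝ))).1 (hn1.trans h2)
  exact ⟨⟨n, by omega⟩, hn1, by rw [pow_succ'] at hn2; exact hn2.le⟩

/-- the uniformity produced by the word decomposition on the levels `j … M` -/
structure Unif {ι κ : Type*} (b : ℕ) (A : ℕ → ℤ → Set (Ph d)) (M : ℕ) (h : L2 d) (X : Finset κ)
    (p : κ → V d × ℝ) (τ : ℝ) (σ : ℕ → (ℕ → Finset (Node d)) → Node d → ι)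
    (j : ℕ) (al : ℕ → Finset (Node d)) (amp : ℕ → ℝ) : Prop where
  top : ∀ i, M < i → al i = ∅
  low : ∀ i, j ≤ i → i ≤ M → τ * ‖h‖ ^ 2 ≤ amp i
  ge : ∀ i, j ≤ i → ∀ ν ∈ al i, amp i ≤ mass b A al M h i ν
  le : ∀ i, j ≤ i → ∀ ν ∈ al i, mass b A al M h i ν ≤ 2 * amp i
  window : ∀ i, j ≤ i → ∀ ν ∈ al i, ∃ z ∈ X, win b i (p z).2 = ν.1
  stat : ∀ i, j ≤ i → ∀ ν ∈ al i, ∀ ν' ∈ al i, σ i al ν = σ i al ν'

theorem decomp_step {ι κ : Type*} [Fintype ι] {b : ℕ} (hb : 1 ≤ b) {A : ℕ → ℤ → Set (Ph d)}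
    (hA : ∀ j k, MeasurableSet (A j k)) {M : ℕ} {h : L2 d} (hh : h ≠ 0) (X : Finset κ)
    (p : κ → V d × ℝ) (w : κ → ℝ) (hw : ∀ z ∈ X, 0 ≤ w z) {τ : ℝ} (hτ : 0 < τ) {L : ℕ}
    (hL : 1 ≤ τ * 2 ^ L) (σ : ℕ → (ℕ → Finset (Node d)) → Node d → ι)
    (hσ : ∀ j al al', (∀ i, j < i → al i = al' i) → σ j al = σ j al')
    {j : ℕ} (hj : j ≤ M) {al : ℕ → Finset (Node d)} {amp : ℕ → ℝ}
    (hU : Unif b A M h X p τ σ (j + 1) al amp) :
    ∃ al' amp', Unif b A M h X p τ σ j al' amp' ∧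
      En X p w (fun z => tw (lev b A (p z).2) 0 (j + 1)
          (tower b (Aset b A al) (j + 1) M h (p z).2)) ≤
        (((L + 1) * Fintype.card ι + 1 : ℕ) : ℝ) ^ 2 *
          (En X p w (fun z => tw (lev b A (p z).2) 0 j (tower b (Aset b A al') j M h (p z).2)) +
            (∑ z ∈ X, w z) * ((C0 * b) ^ (d * (2 * M + 1)) * (τ * ‖h‖ ^ 2))) := by
  classical
  have hb0 : (0 : ℝ) < (b : ℝ) ^ j := pow_pos (by exact_mod_cast hb) _
  have hn : 0 < ‖h‖ ^ 2 := pow_pos (norm_pos_iff.2 hh) 2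
  set μ := τ * ‖h‖ ^ 2 with hμdef
  have hμ : 0 < μ := mul_pos hτ hn
  have hC : 0 ≤ C0 := le_trans (by norm_num) four_le_C0
  have hdy : ∀ ν : Node d, ∃ n : Fin (L + 1), μ ≤ mass b A al M h j ν →
      2 ^ (n : ℕ) * μ ≤ mass b A al M h j ν ∧ mass b A al M h j ν ≤ 2 * (2 ^ (n : ℕ) * μ) := by
    intro ν
    by_cases hν : μ ≤ mass b A al M h j ν
    · have h1 := sum_mass_le' hb hA al M h j ν.1 {ν} (by simp)
      rw [Finset.sum_singleton] at h1
      obtain ⟨n, h2, h3⟩ := exists_dyadic (L := L) (q := mass b A al M h j ν / μ)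
        ((one_le_div hμ).2 hν) (by rw [div_le_iff₀ hμ, hμdef]; nlinarith)
      rw [le_div_iff₀ hμ] at h2
      rw [div_le_iff₀ hμ] at h3
      exact ⟨n, fun _ => ⟨h2, by linarith⟩⟩
    · exact ⟨0, fun h' => absurd h' hν⟩
  choose dy hdy using hdy
  set cl : Node d → Option (Fin (L + 1) × ι) :=
    fun ν => if μ ≤ mass b A al M h j ν then some (dy ν, σ j al ν) else none with hcl
  set Wn := X.image fun z => win b j (p z).2
  have hfin := finite_heavy hb hA al M h j Wn hμ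
  set F : Option (Fin (L + 1) × ι) → κ → L2 d := fun o z => tw (lev b A (p z).2) 0 j
    (loc ((b : ℝ) ^ j) (wt b j (p z).2) (A j (win b j (p z).2) ∩
      {β | cl (win b j (p z).2, idx ((b : ℝ) ^ j) (wt b j (p z).2) β) = o})
      (tower b (Aset b A al) (j + 1) M h (p z).2)) with hF
  obtain ⟨o, -, ho⟩ := Finset.exists_max_image Finset.univ (fun o => En X p w (F o))
    Finset.univ_nonempty
  set al' := Function.update al j (hfin.toFinset.filter fun ν => cl ν = o) with hal'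
  have hal1 : ∀ l, j < l → al l = al' l := fun l hl => by
    rw [hal', Function.update_of_ne hl.ne']
  have hal2 : ∀ ν, ν ∈ al' j ↔ (ν.1 ∈ Wn ∧ μ ≤ mass b A al M h j ν) ∧ cl ν = o := fun ν => by
    rw [hal', Function.update_self, Finset.mem_filter, Set.Finite.mem_toFinset]; rfl
  set a0 : ℝ := Option.elim o μ fun c => 2 ^ (c.1 : ℕ) * μ with ha0
  have hcases : ∀ i, j ≤ i → i = j ∨ j + 1 ≤ i := fun i hi => by omega
  have hm : ∀ i, j ≤ i → ∀ ν, mass b A al' M h i ν = mass b A al M h i ν := fun i hi ν =>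
    (mass_congr b A (fun l hl => hal1 l (by omega)) M h ν).symm
  have hkey : ∀ ν ∈ al' j, o = some (dy ν, σ j al ν) ∧ a0 = 2 ^ (dy ν : ℕ) * μ ∧
      μ ≤ mass b A al M h j ν := fun ν hν => by
    obtain ⟨⟨-, h1⟩, h2⟩ := (hal2 ν).1 hν
    have h3 : o = some (dy ν, σ j al ν) := by rw [← h2, hcl]; exact if_pos h1
    exact ⟨h3, by rw [ha0, h3]; rfl, h1⟩
  refine ⟨al', Function.update amp j a0, ⟨fun i hi => ?_, fun i hi hiM => ?_, fun i hi ν hν => ?_,
    fun i hi ν hν => ?_, fun i hi ν hν => ?_, fun i hi ν hν ν' hν' => ?_⟩, ?_⟩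
  · rw [← hal1 i (by omega), hU.top i hi]
  · rcases hcases i hi with rfl | hi'
    · rw [Function.update_self, ha0]
      cases o with
      | none => exact le_rfl
      | some c => exact le_mul_of_one_le_left hμ.le (one_le_pow₀ one_le_two)
    · rw [Function.update_of_ne (by omega)]; exact hU.low i hi' hiM
  · rw [hm i hi]
    rcases hcases i hi with rfl | hi'
    · obtain ⟨-, h1, h2⟩ := hkey ν hν
      rw [Function.update_self, h1]; exact (hdy ν h2).1
    · rw [Function.update_of_ne (by omega)]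
      exact hU.ge i hi' ν (by rwa [hal1 i (by omega)])
  · rw [hm i hi]
    rcases hcases i hi with rfl | hi'
    · obtain ⟨-, h1, h2⟩ := hkey ν hν
      rw [Function.update_self, h1]; exact (hdy ν h2).2
    · rw [Function.update_of_ne (by omega)]
      exact hU.le i hi' ν (by rwa [hal1 i (by omega)])
  · rcases hcases i hi with rfl | hi'
    · obtain ⟨z, hz, e⟩ := Finset.mem_image.1 ((hal2 ν).1 hν).1.1
      exact ⟨z, hz, e⟩
    · exact hU.window i hi' ν (by rwa [hal1 i (by omega)])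
  · rw [← hσ i al al' fun l hl => hal1 l (by omega)]
    rcases hcases i hi with rfl | hi'
    · have h1 := (hkey ν hν).1.symm.trans (hkey ν' hν').1
      exact (Prod.ext_iff.1 (Option.some.inj h1)).2
    · exact hU.stat i hi' ν (by rwa [hal1 i (by omega)]) ν' (by rwa [hal1 i (by omega)])
  set N : ℝ := (((L + 1) * Fintype.card ι + 1 : ℕ) : ℝ) with hN
  have hcard : (Fintype.card (Option (Fin (L + 1) × ι)) : ℝ) = N := by
    rw [hN, Fintype.card_option, Fintype.card_prod, Fintype.card_fin]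
  have hN0 : 0 ≤ N := Nat.cast_nonneg _
  have h1 : En X p w (fun z => tw (lev b A (p z).2) 0 (j + 1)
      (tower b (Aset b A al) (j + 1) M h (p z).2)) ≤ N * ∑ o', En X p w (F o') := by
    unfold En
    rw [Finset.sum_comm, Finset.mul_sum]
    refine Finset.sum_le_sum fun z hz => ?_
    rw [← Finset.mul_sum, mul_left_comm]
    refine mul_le_mul_of_nonneg_left ?_ (hw z hz)
    beta_reduce
    rw [tw_succ', zero_add, lev, loc_partition hb0 _ (hA _ _) (fun c => cl (win b j (p z).2, c)),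
      tw_sum hb hA, inner_sum]
    refine (pow_le_pow_left₀ (norm_nonneg _) (norm_sum_le _ _) 2).trans ?_
    refine sq_sum_le_card_mul_sum_sq.trans (le_of_eq ?_)
    rw [Finset.card_univ, hcard]
  have h2 : ∑ o', En X p w (F o') ≤ N * En X p w (F o) := by
    have := Finset.sum_le_card_nsmul Finset.univ (fun o' => En X p w (F o')) _ ho
    rwa [nsmul_eq_mul, Finset.card_univ, hcard] at this
  have hEn0 : ∀ H : κ → L2 d, 0 ≤ En X p w H := fun H =>
    Finset.sum_nonneg fun z hz => mul_nonneg (hw z hz) (by positivity)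
  have hW : 0 ≤ ∑ z ∈ X, w z := Finset.sum_nonneg hw
  have h3 : En X p w (F o) ≤
      En X p w (fun z => tw (lev b A (p z).2) 0 j (tower b (Aset b A al') j M h (p z).2)) +
        (∑ z ∈ X, w z) * ((C0 * b) ^ (d * (2 * M + 1)) * μ) := by
    have htw : ∀ t : ℝ, tower b (Aset b A al) (j + 1) M h t =
        tower b (Aset b A al) (j + 1) M h (tk b j (win b j t)) := fun t =>
      tower_congr hb _ M h (win_of_win_eq hb (Nat.le_succ j) (win_tk_self hb j _).symm)
    by_cases hon : o = none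
    · refine le_add_of_nonneg_of_le (hEn0 _) ?_
      rw [En, Finset.sum_mul]
      refine Finset.sum_le_sum fun z hz => mul_le_mul_of_nonneg_left ?_ (hw z hz)
      refine tiny_bound hb hA (p z) hj _ (T := A j (win b j (p z).2) ∩
        {β | cl (win b j (p z).2, idx ((b : ℝ) ^ j) (wt b j (p z).2) β) = o})
        ((hA _ _).inter (measurableSet_idx _ _ {c | cl (win b j (p z).2, c) = o})) hμ.le fun q => ?_
      by_cases hq : μ ≤ mass b A al M h j (win b j (p z).2, q)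
      · have : A j (win b j (p z).2) ∩ {β | cl (win b j (p z).2,
            idx ((b : ℝ) ^ j) (wt b j (p z).2) β) = o} ∩
            {β | idx ((b : ℝ) ^ j) (wt b j (p z).2) β = q} = ∅ := by
          refine eq_empty_of_forall_notMem fun β hβ => ?_
          have e1 := hβ.1.2
          have e2 := hβ.2
          simp only [mem_ofPred_eq] at e1 e2
          rw [e2, hon, hcl] at e1
          simp only [if_pos hq] at e1
          exact Option.some_ne_none _ e1
        rw [this, setIntegral_empty]; exact hμ.le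
      · refine le_trans ?_ (not_le.1 hq).le
        rw [mass, coef, ← htw]
        refine setIntegral_mono_set (Iso.integrable_co_sq hb0 _ _).integrableOn
          (Filter.Eventually.of_forall fun β => by positivity) ?_
        exact Filter.Eventually.of_forall fun β hβ => ⟨hβ.1.1, hβ.2⟩
    · refine le_add_of_le_of_nonneg (le_of_eq ?_) (by positivity)
      refine Finset.sum_congr rfl fun z hz => ?_
      have e : A j (win b j (p z).2) ∩
          {β | cl (win b j (p z).2, idx ((b : ℝ) ^ j) (wt b j (p z).2) β) = o} =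
          Aset b A al' j (win b j (p z).2) := by
        unfold Aset
        congr 1
        ext β
        rw [mem_ofPred_eq, mem_ofPred_eq, hal2, wt_eq_tk]
        refine ⟨fun h' => ⟨⟨Finset.mem_image_of_mem _ hz, ?_⟩, h'⟩, fun h' => h'.2⟩
        by_contra hc
        rw [hcl] at h'
        simp only [if_neg hc] at h'
        exact hon h'.symm
      simp only [hF]
      rw [e, tower_eq_loc b _ hj, lev,
        tower_Aset_congr b A (i := j + 1) (fun l hl => hal1 l hl)]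
  calc _ ≤ N * (N * En X p w (F o)) := h1.trans (mul_le_mul_of_nonneg_left h2 hN0)
    _ = N ^ 2 * En X p w (F o) := by ring
    _ ≤ _ := mul_le_mul_of_nonneg_left h3 (by positivity)

/-- **Word decomposition.**  `σ j al` may depend on the alive sets of the levels `> j` only. -/
theorem decomp {ι κ : Type*} [Fintype ι] {b : ℕ} (hb : 1 ≤ b) {A : ℕ → ℤ → Set (Ph d)}
    (hA : ∀ j k, MeasurableSet (A j k)) (M : ℕ) {h : L2 d} (hh : h ≠ 0) (X : Finset κ)
    (p : κ → V d × ℝ) (w : κ → ℝ) (hw : ∀ z ∈ X, 0 ≤ w z) {τ : ℝ} (hτ : 0 < τ) {L : ℕ}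
    (hL : 1 ≤ τ * 2 ^ L) (σ : ℕ → (ℕ → Finset (Node d)) → Node d → ι)
    (hσ : ∀ j al al', (∀ i, j < i → al i = al' i) → σ j al = σ j al') :
    ∃ al amp, Unif b A M h X p τ σ 0 al amp ∧
      En X p w (fun z => tower b A 0 M h (p z).2) ≤
        (((L + 1) * Fintype.card ι + 1 : ℕ) : ℝ) ^ (2 * (M + 1)) *
          (En X p w (fun z => tower b (Aset b A al) 0 M h (p z).2) +
            (M + 1) * ((∑ z ∈ X, w z) * ((C0 * b) ^ (d * (2 * M + 1)) * (τ * ‖h‖ ^ 2)))) := by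
  set N : ℝ := (((L + 1) * Fintype.card ι + 1 : ℕ) : ℝ) with hN
  set e : ℝ := (∑ z ∈ X, w z) * ((C0 * b) ^ (d * (2 * M + 1)) * (τ * ‖h‖ ^ 2)) with he
  have hC : 0 ≤ C0 := le_trans (by norm_num) four_le_C0
  have hW : 0 ≤ ∑ z ∈ X, w z := Finset.sum_nonneg hw
  have he0 : 0 ≤ e := by positivity
  have hN1 : 1 ≤ N := by rw [hN]; exact_mod_cast Nat.le_add_left 1 _
  have key : ∀ m j, m + j = M + 1 → ∃ al amp, Unif b A M h X p τ σ j al amp ∧
      En X p w (fun z => tower b A 0 M h (p z).2) ≤ N ^ (2 * m) *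
        (En X p w (fun z => tw (lev b A (p z).2) 0 j (tower b (Aset b A al) j M h (p z).2)) +
          m * e) := by
    intro m
    induction m with
    | zero =>
      intro j hj
      obtain rfl : j = M + 1 := by omega
      refine ⟨fun _ => ∅, fun _ => 0, ⟨fun _ _ => rfl, fun i h1 h2 => by omega, by simp, by simp,
        by simp, by simp⟩, le_of_eq ?_⟩
      simp only [tower_top, mul_zero, pow_zero, one_mul, Nat.cast_zero, zero_mul, add_zero]
      rfl
    | succ m ih =>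
      intro j hj
      obtain ⟨al, amp, hU, hE⟩ := ih (j + 1) (by omega)
      obtain ⟨al', amp', hU', hE'⟩ := decomp_step hb hA hh X p w hw hτ hL σ hσ (by omega) hU
      refine ⟨al', amp', hU', hE.trans ?_⟩
      rw [← hN, ← he] at hE'
      rw [mul_add 2 m 1, pow_add, mul_assoc, mul_one]
      refine mul_le_mul_of_nonneg_left ?_ (by positivity)
      have h1 : (m : ℝ) * e ≤ N ^ 2 * (m * e) :=
        le_mul_of_one_le_left (by positivity) (one_le_pow₀ hN1)
      push_cast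
      nlinarith
  obtain ⟨al, amp, hU, hE⟩ := key (M + 1) 0 rfl
  refine ⟨al, amp, hU, ?_⟩
  push_cast at hE
  exact hE

end Crest.Agent.N76.T
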