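import Crest.Agent.N76.G.Tail

/-! # Row 76 (S0101): tiles, alive sets and masses of a Gaussian tower (helper13). -/

set_option autoImplicit false

open MeasureTheory Set Metric
open scoped ENNReal RealInnerProductSpace

namespace Crest.Agent.N76.T

open Crest.Agent.N76.Red (V)
open Crest.Agent.N76.G

/-- lattice cell of phase space: (position index, frequency index) -/
abbrev Cell (d : ℕ) := (Fin d → ℤ) × (Fin d → ℤ)

/-- node of one level: (time window, cell) -/
abbrev Node (d : ℕ) := ℤ × Cell d

variable {d : ℕ}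

/-- cell of the line `β` in the frame of width `a` at time `t` -/
noncomputable def idx (a t : ℝ) (β : Ph d) : Cell d :=
  (fun i => ⌊pos t β i / a⌋, fun i => ⌊a * β.2 i⌋)

/-- left end point of window `k` of level `j` -/
noncomputable def tk (b j : ℕ) (k : ℤ) : ℝ := (k : ℝ) * (b : ℝ) ^ (2 * j)

/-- the tile (a set of lines, volume one) of a level `j` node -/
def tile (b j : ℕ) (ν : Node d) : Set (Ph d) := {β | idx ((b : ℝ) ^ j) (tk b j ν.1) β = ν.2}

/-- external set `A` cut down to the alive tiles -/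
def Aset (b : ℕ) (A : ℕ → ℤ → Set (Ph d)) (al : ℕ → Finset (Node d)) (j : ℕ) (k : ℤ) :
    Set (Ph d) :=
  A j k ∩ {β | (k, idx ((b : ℝ) ^ j) (tk b j k) β) ∈ al j}

/-- the level `j` coefficient function in window `k` of the tower with sets `A` -/
noncomputable def coef (b : ℕ) (A : ℕ → ℤ → Set (Ph d)) (M : ℕ) (h : L2 d) (j : ℕ) (k : ℤ) :
    Ph d → ℂ :=
  co ((b : ℝ) ^ j) (tk b j k) (tower b A (j + 1) M h (tk b j k))

/-- mass of the level `j` node `ν` (it depends only on the alive sets of levels `> j`) -/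
noncomputable def mass (b : ℕ) (A : ℕ → ℤ → Set (Ph d)) (al : ℕ → Finset (Node d)) (M : ℕ)
    (h : L2 d) (j : ℕ) (ν : Node d) : ℝ :=
  ∫ β in A j ν.1 ∩ tile b j ν, ‖coef b (Aset b A al) M h j ν.1 β‖ ^ 2

/-- the dimension free constant of the tail estimates -/
noncomputable def C0 : ℝ := 16 * Real.exp (12 * Real.pi)

end Crest.Agent.N76.T
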