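import Crest.Agent.N76.T.Defs

/-! # Row 76 (S0101): tiles have volume one; sup bounds for syntheses (helper13). -/

set_option autoImplicit false

open MeasureTheory Set Metric
open scoped ENNReal RealInnerProductSpace

namespace Crest.Agent.N76.T

open Crest.Agent.N76.Red (V)
open Crest.Agent.N76.G

variable {d : ℕ}

theorem measurable_idx (a t : ℝ) : Measurable (idx a t : Ph d → Cell d) := by
  have h1 := (continuous_pos (d := d) t).measurable
  refine Measurable.prodMk (measurable_pi_lambda _ fun i => ?_) (measurable_pi_lambda _ fun i => ?_)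
  · refine Measurable.floor ?_
    exact ((EuclideanSpace.proj (𝕜 := ℝ) i).continuous.measurable.comp h1).div_const a
  · refine Measurable.floor ?_
    exact (((EuclideanSpace.proj (𝕜 := ℝ) i).continuous.measurable.comp measurable_snd)).const_mul a

theorem measurableSet_idx (a t : ℝ) (S : Set (Cell d)) :
    MeasurableSet {β : Ph d | idx a t β ∈ S} :=
  measurable_idx a t (MeasurableSet.of_discrete)

theorem measurableSet_tile (b j : ℕ) (ν : Node d) : MeasurableSet (tile b j ν) :=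
  measurableSet_idx _ _ {ν.2}

theorem measurableSet_Aset (b : ℕ) {A : ℕ → ℤ → Set (Ph d)} (hA : ∀ j k, MeasurableSet (A j k))
    (al : ℕ → Finset (Node d)) (j : ℕ) (k : ℤ) : MeasurableSet (Aset b A al j k) :=
  (hA j k).inter (measurableSet_idx _ _ {c | (k, c) ∈ al j})

theorem volume_cube {a : ℝ} (ha : 0 < a) (y : Fin d → ℤ) (u : V d) :
    volume {x : V d | ∀ i, ⌊(x - u) i / a⌋ = y i} = ENNReal.ofReal (a ^ d) := by
  have h := (PiLp.volume_preserving_toLp (Fin d))
  have hm : MeasurableSet {x : V d | ∀ i, ⌊(x - u) i / a⌋ = y i} := by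
    rw [ofPred_forall]
    refine MeasurableSet.iInter fun i => ?_
    have : Measurable fun x : V d => ⌊(x - u) i / a⌋ :=
      (((EuclideanSpace.proj (𝕜 := ℝ) i).continuous.measurable.comp
        (measurable_id.sub_const u)).div_const a).floor
    exact this (measurableSet_singleton _)
  rw [← h.measure_preimage hm.nullMeasurableSet]
  have : (WithLp.toLp 2 ⁻¹' {x : V d | ∀ i, ⌊(x - u) i / a⌋ = y i}) =
      Set.pi univ fun i => Ico (u i + y i * a) (u i + (y i + 1) * a) := by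
    ext x
    simp only [mem_preimage, mem_ofPred_eq, PiLp.sub_apply, mem_pi, mem_univ, true_imp_iff, mem_Ico,
      Int.floor_eq_iff, le_div_iff₀ ha, div_lt_iff₀ ha]
    refine forall_congr' fun i => ?_
    constructor <;> rintro ⟨h1, h2⟩ <;> constructor <;> linarith
  rw [this, Real.volume_pi_Ico]
  simp only [add_sub_add_left_eq_sub]
  rw [show (fun i => ENNReal.ofReal (((y i : ℝ) + 1) * a - y i * a)) = fun _ => ENNReal.ofReal a from
    funext fun i => by congr 1; ring]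
  rw [Finset.prod_const, Finset.card_univ, Fintype.card_fin, ENNReal.ofReal_pow ha.le]

theorem volume_idx {a : ℝ} (ha : 0 < a) (t : ℝ) (c : Cell d) :
    volume {β : Ph d | idx a t β = c} = 1 := by
  have hm : MeasurableSet {β : Ph d | idx a t β = c} := measurableSet_idx a t {c}
  rw [Measure.volume_eq_prod, Measure.prod_apply_symm hm]
  have h1 : ∀ ζ : V d, volume ((fun y : V d => (y, ζ)) ⁻¹' {β : Ph d | idx a t β = c}) =
      {ζ : V d | ∀ i, ⌊(ζ - 0) i / a⁻¹⌋ = c.2 i}.indicator (fun _ => ENNReal.ofReal (a ^ d)) ζ := by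
    intro ζ
    by_cases hζ : ζ ∈ {ζ : V d | ∀ i, ⌊(ζ - 0) i / a⁻¹⌋ = c.2 i}
    · rw [indicator_of_mem hζ, ← volume_cube ha c.1 ((2 * t) • ζ)]
      congr 1
      ext y
      simp only [mem_ofPred_eq, sub_zero, div_inv_eq_mul] at hζ
      simp only [mem_preimage, mem_ofPred_eq, idx, pos, Prod.ext_iff, funext_iff]
      exact and_iff_left fun i => by rw [mul_comm]; exact hζ i
    · rw [indicator_of_notMem hζ]
      convert measure_empty (μ := (volume : Measure (V d)))
      ext y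
      simp only [mem_ofPred_eq, sub_zero, div_inv_eq_mul] at hζ
      simp only [mem_preimage, mem_ofPred_eq, idx, pos, Prod.ext_iff, funext_iff, mem_empty_iff_false,
        iff_false, not_and]
      exact fun _ h => hζ fun i => by rw [mul_comm]; exact h i
  simp_rw [h1]
  have hm2 : MeasurableSet {ζ : V d | ∀ i, ⌊(ζ - 0) i / a⁻¹⌋ = c.2 i} := by
    rw [ofPred_forall]
    refine MeasurableSet.iInter fun i => ?_
    have : Measurable fun x : V d => ⌊(x - 0) i / a⁻¹⌋ :=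
      (((EuclideanSpace.proj (𝕜 := ℝ) i).continuous.measurable.comp
        (measurable_id.sub_const 0)).div_const a⁻¹).floor
    exact this (measurableSet_singleton _)
  rw [lintegral_indicator_const hm2, volume_cube (inv_pos.2 ha), ← ENNReal.ofReal_mul (by positivity),
    ← mul_pow, mul_inv_cancel₀ ha.ne', one_pow, ENNReal.ofReal_one]

theorem volume_tile {b : ℕ} (hb : 1 ≤ b) (j : ℕ) (ν : Node d) : volume (tile b j ν) = 1 :=
  volume_idx (pow_pos (by exact_mod_cast hb) j) _ _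

theorem norm_le_of_coord {x : V d} {r : ℝ} (_hr : 0 ≤ r) (h : ∀ i, |x i| ≤ r) :
    ‖x‖ ^ 2 ≤ d * r ^ 2 := by
  rw [EuclideanSpace.norm_sq_eq]
  calc ∑ i, ‖x i‖ ^ 2 ≤ ∑ _i : Fin d, r ^ 2 :=
        Finset.sum_le_sum fun i _ => pow_le_pow_left₀ (norm_nonneg _) (h i) 2
    _ = d * r ^ 2 := by simp

theorem abs_sub_lt_of_floor_eq {x y : ℝ} (h : ⌊x⌋ = ⌊y⌋) : |x - y| ≤ 1 :=
  (Int.abs_sub_lt_one_of_floor_eq_floor h).le

/-- two lines of one cell are close -/
theorem close_of_idx_eq {a : ℝ} (ha : 0 < a) {t : ℝ} {β β' : Ph d} (h : idx a t β = idx a t β') :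
    ‖pos t (β - β')‖ ^ 2 ≤ d * a ^ 2 ∧ ‖(β - β').2‖ ^ 2 ≤ d * (1 / a) ^ 2 := by
  simp only [idx, Prod.ext_iff, funext_iff] at h
  refine ⟨norm_le_of_coord ha.le fun i => ?_, norm_le_of_coord (by positivity) fun i => ?_⟩
  · have := abs_sub_lt_of_floor_eq (h.1 i)
    rw [← sub_div, abs_div, abs_of_pos ha, div_le_one ha] at this
    rw [pos_sub]; exact this
  · have := abs_sub_lt_of_floor_eq (h.2 i)
    rw [← mul_sub, abs_mul, abs_of_pos ha] at this
    rw [le_div_iff₀ ha, mul_comm]; exact this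

theorem pos_eq_pos (t t' : ℝ) (β : Ph d) : pos t β = pos t' β - (2 * (t - t')) • β.2 := by
  simp only [pos, sub_sub, ← add_smul]; congr 2; ring

theorem Qf_le_of_idx_eq {a a' t t' : ℝ} (ha : 0 < a) (haa : a ≤ a') (ht : |t - t'| ≤ a' ^ 2)
    {β β' : Ph d} (h : idx a' t' β = idx a' t' β') : Qf a t a' t' (β - β') ≤ 13 * d - d := by
  have ha' : 0 < a' := ha.trans_le haa
  obtain ⟨h1, h2⟩ := close_of_idx_eq ha' h
  set Δ := β - β'
  have hd : (0 : ℝ) ≤ d := Nat.cast_nonneg d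
  have h2' : a' ^ 2 * ‖Δ.2‖ ^ 2 ≤ d := by
    calc a' ^ 2 * ‖Δ.2‖ ^ 2 ≤ a' ^ 2 * (d * (1 / a') ^ 2) := by gcongr
      _ = (d : ℝ) := by field_simp
  have h3 : ‖pos t Δ‖ ≤ ‖pos t' Δ‖ + 2 * a' * (a' * ‖Δ.2‖) := by
    rw [pos_eq_pos t t']
    refine (norm_sub_le _ _).trans ?_
    rw [norm_smul, Real.norm_eq_abs, abs_mul, abs_two]
    have : 2 * |t - t'| * ‖Δ.2‖ ≤ 2 * a' ^ 2 * ‖Δ.2‖ := by gcongr
    nlinarith
  have h4 : ‖pos t Δ‖ ^ 2 ≤ 9 * d * a' ^ 2 := by
    have e1 : ‖pos t' Δ‖ ≤ Real.sqrt d * a' := by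
      refine (pow_le_pow_iff_left₀ (norm_nonneg _) (by positivity) two_ne_zero).1 ?_
      rw [mul_pow, Real.sq_sqrt hd]; exact h1
    have e2 : a' * ‖Δ.2‖ ≤ Real.sqrt d := by
      refine (pow_le_pow_iff_left₀ (by positivity) (by positivity) two_ne_zero).1 ?_
      rw [mul_pow, Real.sq_sqrt hd]; exact h2'
    have e3 : ‖pos t Δ‖ ≤ 3 * (Real.sqrt d * a') := by nlinarith
    calc ‖pos t Δ‖ ^ 2 ≤ (3 * (Real.sqrt d * a')) ^ 2 := by gcongr
      _ = 9 * d * a' ^ 2 := by rw [mul_pow, mul_pow, Real.sq_sqrt hd]; ring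
  have hs : a' ^ 4 ≤ sig a t a' t' := by unfold sig; nlinarith [sq_nonneg (t - t'), sq_nonneg a, sq_nonneg a', mul_nonneg (sq_nonneg a) (sq_nonneg a')]
  unfold Qf
  rw [div_le_iff₀ (sig_pos ha t t')]
  have haa2 : a ^ 2 ≤ a' ^ 2 := by gcongr
  have e4 : a' ^ 2 * ‖pos t Δ‖ ^ 2 ≤ 9 * d * a' ^ 4 := by nlinarith [sq_nonneg a']
  have e5 : a ^ 2 * ‖pos t' Δ‖ ^ 2 ≤ d * a' ^ 4 := by
    calc a ^ 2 * ‖pos t' Δ‖ ^ 2 ≤ a' ^ 2 * (d * a' ^ 2) := by gcongr
      _ = d * a' ^ 4 := by ring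
  have e6 : a ^ 2 * a' ^ 2 * (a ^ 2 + a' ^ 2) * ‖Δ.2‖ ^ 2 ≤ 2 * d * a' ^ 4 := by
    calc a ^ 2 * a' ^ 2 * (a ^ 2 + a' ^ 2) * ‖Δ.2‖ ^ 2
        = a ^ 2 * (a ^ 2 + a' ^ 2) * (a' ^ 2 * ‖Δ.2‖ ^ 2) := by ring
      _ ≤ a' ^ 2 * (a' ^ 2 + a' ^ 2) * d := by gcongr
      _ = 2 * d * a' ^ 4 := by ring
  nlinarith

theorem Qf_add_le (a t a' t' : ℝ) (u v : Ph d) :
    Qf a t a' t' (u + v) ≤ 2 * Qf a t a' t' u + 2 * Qf a t a' t' v := by
  have key : ∀ x y : V d, ‖x + y‖ ^ 2 ≤ 2 * ‖x‖ ^ 2 + 2 * ‖y‖ ^ 2 := fun x y => by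
    have := norm_add_le x y
    nlinarith [norm_nonneg (x + y), norm_nonneg x, norm_nonneg y, sq_nonneg (‖x‖ - ‖y‖)]
  have hp : ∀ s, pos s (u + v) = pos s u + pos s v := fun s => by
    simp only [pos, Prod.fst_add, Prod.snd_add, smul_add]; abel
  unfold Qf
  rw [hp, hp, Prod.snd_add, ← mul_div_assoc, ← mul_div_assoc, ← add_div]
  refine div_le_div_of_nonneg_right ?_ (by unfold sig; positivity)
  have h1 := mul_le_mul_of_nonneg_left (key (pos t u) (pos t v)) (sq_nonneg a')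
  have h2 := mul_le_mul_of_nonneg_left (key (pos t' u) (pos t' v)) (sq_nonneg a)
  have h3 := mul_le_mul_of_nonneg_left (key u.2 v.2)
    (show 0 ≤ a ^ 2 * a' ^ 2 * (a ^ 2 + a' ^ 2) by positivity)
  linarith

theorem inv_pre_sq_le {a a' t t' : ℝ} (ha : 0 < a) (haa : a ≤ a') (ht : |t - t'| ≤ a' ^ 2) :
    1 / pre d a t a' t' ^ 2 ≤ (2 * a' / a) ^ d := by
  have ha' : 0 < a' := ha.trans_le haa
  have hs := sig_pos (a' := a') ha t t'
  have h1 : sig a t a' t' ≤ 8 * a' ^ 4 := by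
    unfold sig
    have : (t - t') ^ 2 ≤ (a' ^ 2) ^ 2 := by rw [← sq_abs]; gcongr
    have haa2 : a ^ 2 ≤ a' ^ 2 := by gcongr
    have : (a ^ 2 + a' ^ 2) ^ 2 ≤ (a' ^ 2 + a' ^ 2) ^ 2 := by gcongr
    nlinarith
  have h2 : ((a / (2 * a')) ^ 2 : ℝ) ≤ 4 * a ^ 2 * a' ^ 2 / sig a t a' t' := by
    rw [le_div_iff₀ hs]
    calc (a / (2 * a')) ^ 2 * sig a t a' t' ≤ (a / (2 * a')) ^ 2 * (16 * a' ^ 4) := by
          gcongr; nlinarith [pow_pos ha' 4]
      _ = 4 * a ^ 2 * a' ^ 2 := by field_simp; ring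
  have h3 : (a / (2 * a')) ^ d ≤ pre d a t a' t' ^ 2 := by
    rw [pre, ← Real.rpow_natCast (_ ^ _) 2, ← Real.rpow_mul (by positivity)]
    calc (a / (2 * a')) ^ d = (((a / (2 * a')) ^ 2 : ℝ)) ^ ((d : ℝ) / 4 * (2 : ℕ)) := by
          rw [← Real.rpow_natCast _ 2, ← Real.rpow_mul (by positivity), ← Real.rpow_natCast]
          congr 1; push_cast; ring
      _ ≤ _ := Real.rpow_le_rpow (by positivity) h2 (by positivity)
  rw [div_le_iff₀ (pow_pos (pre_pos ha ha' t t') 2)]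
  calc (1 : ℝ) = (2 * a' / a) ^ d * (a / (2 * a')) ^ d := by
        rw [← mul_pow, show 2 * a' / a * (a / (2 * a')) = 1 by field_simp, one_pow]
    _ ≤ _ := by gcongr

theorem pre_sq_le {a a' : ℝ} (ha : 0 < a) (ha' : 0 < a') (t t' : ℝ) :
    pre d a t a' t' ^ 2 ≤ (2 * a / a') ^ d := by
  have hs := sig_pos (a' := a') ha t t'
  have hs' : a' ^ 4 ≤ sig a t a' t' := by
    unfold sig
    nlinarith [sq_nonneg (t - t'), sq_nonneg a, sq_nonneg a', mul_nonneg (sq_nonneg a) (sq_nonneg a')]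
  have h2 : 4 * a ^ 2 * a' ^ 2 / sig a t a' t' ≤ ((2 * a / a') ^ 2 : ℝ) := by
    rw [div_le_iff₀ hs]
    calc 4 * a ^ 2 * a' ^ 2 = (2 * a / a') ^ 2 * a' ^ 4 := by field_simp; ring
      _ ≤ _ := by gcongr
  rw [pre, ← Real.rpow_natCast (_ ^ _) 2, ← Real.rpow_mul (by positivity)]
  calc _ ≤ (((2 * a / a') ^ 2 : ℝ)) ^ ((d : ℝ) / 4 * (2 : ℕ)) :=
        Real.rpow_le_rpow (by positivity) h2 (by positivity)
    _ = _ := by
        rw [← Real.rpow_natCast _ 2, ← Real.rpow_mul (by positivity), ← Real.rpow_natCast]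
        congr 1; push_cast; ring

/-- basic pointwise bound -/
theorem enorm_co_syn_le' {a a' : ℝ} (ha : 0 < a) (ha' : 0 < a') (t t' : ℝ) {c : Ph d → ℂ}
    (hc : MemLp c 2 volume) (β : Ph d) :
    ‖co a t (syn a' t' c) β‖ₑ ≤ ∫⁻ β', ENNReal.ofReal (pre d a t a' t' *
      Real.exp (-Real.pi * 1 * Qf a t a' t' (β - β'))) * ‖c β'‖ₑ := by
  rw [co, inner_syn ha' t' hc]
  refine (enorm_integral_le_lintegral_enorm _).trans (lintegral_mono fun β' => ?_)
  rw [enorm_mul, ← ofReal_norm, norm_inner_gam ha ha', mul_one]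

theorem lintegral_ker {a a' : ℝ} (ha : 0 < a) (ha' : 0 < a') (t t' : ℝ) {s C : ℝ} (hs : 0 < s)
    (hC : 0 ≤ C) (β : Ph d) :
    ∫⁻ β', ENNReal.ofReal (C * Real.exp (-Real.pi * s * Qf a t a' t' (β - β'))) =
      ENNReal.ofReal (C * ((2 / s) ^ d / pre d a t a' t' ^ 2)) := by
  rw [lintegral_sub_left_eq_self
    (fun Δ => ENNReal.ofReal (C * Real.exp (-Real.pi * s * Qf a t a' t' Δ))),
    lintegral_exp_Qf ha ha' t t' hs hC]

/-- propagation of sup bounds -/
theorem sup_step {a a' t t' : ℝ} (ha : 0 < a) (haa : a ≤ a') (ht : |t - t'| ≤ a' ^ 2)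
    {c : Ph d → ℂ} (hc : MemLp c 2 volume) {s : ℝ} (hs0 : 0 ≤ s) (hs : ∀ β', ‖c β'‖ ≤ s) (β : Ph d) :
    ‖co a t (syn a' t' c) β‖ ≤ (4 * a' / a) ^ d * s := by
  have ha' : 0 < a' := ha.trans_le haa
  have hp := pre_pos (d := d) ha ha' t t'
  have h1 := enorm_co_syn_le' ha ha' t t' hc β
  have h2 : ∫⁻ β', ENNReal.ofReal (pre d a t a' t' *
      Real.exp (-Real.pi * 1 * Qf a t a' t' (β - β'))) * ‖c β'‖ₑ ≤
      ∫⁻ β', ENNReal.ofReal (pre d a t a' t' * s *
      Real.exp (-Real.pi * 1 * Qf a t a' t' (β - β'))) := by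
    refine lintegral_mono fun β' => ?_
    rw [← ofReal_norm, ← ENNReal.ofReal_mul (by positivity)]
    refine ENNReal.ofReal_le_ofReal ?_
    rw [mul_right_comm]
    gcongr
    exact hs β'
  rw [lintegral_ker ha ha' t t' one_pos (by positivity)] at h2
  have h3 := h1.trans h2
  rw [← ofReal_norm, ENNReal.ofReal_le_ofReal_iff (by positivity)] at h3
  refine h3.trans ?_
  have h4 := inv_pre_sq_le (d := d) ha haa ht
  have h5 := pre_le_one (d := d) ha ha' t t'
  calc pre d a t a' t' * s * ((2 / 1) ^ d / pre d a t a' t' ^ 2)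
      = pre d a t a' t' * s * (2 ^ d * (1 / pre d a t a' t' ^ 2)) := by ring
    _ ≤ 1 * s * (2 ^ d * (2 * a' / a) ^ d) := by gcongr
    _ = (4 * a' / a) ^ d * s := by rw [← mul_pow]; ring_nf

/-- if every cell carries mass at most `μ`, the synthesis is pointwise small -/
theorem tile_sup {a a' t t' : ℝ} (ha : 0 < a) (haa : a ≤ a') (ht : |t - t'| ≤ a' ^ 2)
    {c : Ph d → ℂ} (hc : MemLp c 2 volume) (hcm : Measurable c) {μ : ℝ} (hμ0 : 0 ≤ μ)
    (hμ : ∀ q : Cell d, ∫ β' in {β' | idx a' t' β' = q}, ‖c β'‖ ^ 2 ≤ μ) (β : Ph d) :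
    ‖co a t (syn a' t' c) β‖ ^ 2 ≤ (C0 * a' / a) ^ d * μ := by
  have ha' : 0 < a' := ha.trans_le haa
  have hp := pre_pos (d := d) ha ha' t t'
  have hQ := (continuous_Qf (d := d) a t a' t').measurable
  set P := pre d a t a' t'
  set k : Ph d → ℝ≥0∞ := fun β' => ENNReal.ofReal (P *
      Real.exp (-Real.pi * 1 * Qf a t a' t' (β - β'))) with hk
  have hkm : Measurable k := by
    refine ENNReal.measurable_ofReal.comp ?_
    exact ((hQ.comp (measurable_const.sub measurable_id)).const_mul _).exp.const_mul _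
  set E : ℝ := Real.exp (Real.pi * (13 * d - d))
  set g : Ph d → ℝ≥0∞ := fun β' => ENNReal.ofReal (P * E *
      Real.exp (-Real.pi * (1 / 2) * Qf a t a' t' (β - β'))) with hg
  have hgm : Measurable g := by
    refine ENNReal.measurable_ofReal.comp ?_
    exact ((hQ.comp (measurable_const.sub measurable_id)).const_mul _).exp.const_mul _
  set R : Set (Ph d × Ph d) := {q | idx a' t' q.1 = idx a' t' q.2}
  have hR : MeasurableSet R :=
    measurableSet_eq_fun ((measurable_idx a' t').comp measurable_fst)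
      ((measurable_idx a' t').comp measurable_snd)
  have hmt : ∀ q : Cell d, MeasurableSet {β' : Ph d | idx a' t' β' = q} :=
    fun q => measurableSet_idx a' t' {q}
  have h1 : ∀ β', k β' ≤ ∫⁻ β'', R.indicator (fun q => g q.2) (β', β'') := by
    intro β'
    have e : (fun β'' => R.indicator (fun q => g q.2) (β', β'')) =
        {β'' | idx a' t' β'' = idx a' t' β'}.indicator g := by
      funext β''
      by_cases h : idx a' t' β'' = idx a' t' β'
      · rw [indicator_of_mem (show (β', β'') ∈ R from h.symm), indicator_of_mem (by exact h)]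
      · rw [indicator_of_notMem (show (β', β'') ∉ R from fun h' => h h'.symm),
          indicator_of_notMem (by exact h)]
    rw [e, lintegral_indicator (hmt _)]
    calc k β' = ∫⁻ _ in {β'' | idx a' t' β'' = idx a' t' β'}, k β' := by
          rw [setLIntegral_const, volume_idx ha', mul_one]
      _ ≤ _ := by
          refine setLIntegral_mono' (hmt _) fun β'' hβ'' => ENNReal.ofReal_le_ofReal ?_
          rw [mul_assoc P E, ← Real.exp_add]
          refine mul_le_mul_of_nonneg_left (Real.exp_le_exp.2 ?_) hp.le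
          have e1 := Qf_add_le a t a' t' (β - β') (β' - β'')
          rw [sub_add_sub_cancel] at e1
          have e2 := Qf_le_of_idx_eq ha haa ht (show idx a' t' β' = idx a' t' β'' from hβ''.symm)
          nlinarith [Real.pi_pos]
  have hcm2 : Measurable fun β' => ‖c β'‖ₑ ^ 2 := hcm.enorm.pow_const 2
  have h2 : ∫⁻ β', k β' * ‖c β'‖ₑ ^ 2 ≤ (∫⁻ β'', g β'') * ENNReal.ofReal μ := by
    calc ∫⁻ β', k β' * ‖c β'‖ₑ ^ 2
        ≤ ∫⁻ β', ∫⁻ β'', R.indicator (fun q => g q.2) (β', β'') * ‖c β'‖ₑ ^ 2 := by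
          refine lintegral_mono fun β' => ?_
          rw [lintegral_mul_const (f := fun β'' => R.indicator (fun q => g q.2) (β', β'')) _
            (((hgm.comp measurable_snd).indicator hR).comp measurable_prodMk_left)]
          exact mul_le_mul' (h1 β') le_rfl
      _ = ∫⁻ β'', ∫⁻ β', R.indicator (fun q => g q.2) (β', β'') * ‖c β'‖ₑ ^ 2 := by
          refine lintegral_lintegral_swap ?_
          exact (((hgm.comp measurable_snd).indicator hR).mul (hcm2.comp measurable_fst)).aemeasurable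
      _ ≤ ∫⁻ β'', g β'' * ENNReal.ofReal μ := by
          refine lintegral_mono fun β'' => ?_
          have e : (fun β' => R.indicator (fun q => g q.2) (β', β'') * ‖c β'‖ₑ ^ 2) =
              {β' | idx a' t' β' = idx a' t' β''}.indicator fun β' => g β'' * ‖c β'‖ₑ ^ 2 := by
            funext β'
            by_cases h : idx a' t' β' = idx a' t' β''
            · rw [indicator_of_mem (show (β', β'') ∈ R from h), indicator_of_mem (by exact h)]
            · rw [indicator_of_notMem (show (β', β'') ∉ R from h), indicator_of_notMem (by exact h),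
                zero_mul]
          rw [e, lintegral_indicator (hmt _), lintegral_const_mul _ hcm2]
          refine mul_le_mul' le_rfl ?_
          rw [lintegral_enorm_sq_eq (hc.restrict _)]
          exact ENNReal.ofReal_le_ofReal (hμ _)
      _ = _ := lintegral_mul_const _ hgm
  have h3 := (pow_le_pow_left₀ zero_le (enorm_co_syn_le' ha ha' t t' hc β) 2).trans
    ((lintegral_weight_sq_le hkm.aemeasurable hcm.enorm.aemeasurable).trans
      (mul_le_mul' le_rfl h2))
  rw [hk, hg, lintegral_ker ha ha' t t' one_pos hp.le,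
    lintegral_ker ha ha' t t' (by norm_num) (by positivity), ← ENNReal.ofReal_mul (by positivity),
    ← ENNReal.ofReal_mul (by positivity), ← ofReal_norm, ← ENNReal.ofReal_pow (norm_nonneg _),
    ENNReal.ofReal_le_ofReal_iff (by positivity)] at h3
  refine h3.trans ?_
  have h4 := inv_pre_sq_le (d := d) ha haa ht
  have hE : E = Real.exp (12 * Real.pi) ^ d := by
    rw [← Real.exp_nat_mul]; exact congrArg Real.exp (by ring)
  calc P * ((2 / 1) ^ d / P ^ 2) * (P * E * ((2 / (1 / 2)) ^ d / P ^ 2) * μ)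
      = 2 ^ d * 4 ^ d * E * (1 / P ^ 2) * μ := by norm_num; field_simp
    _ ≤ 2 ^ d * 4 ^ d * E * (2 * a' / a) ^ d * μ := by gcongr
    _ = (C0 * a' / a) ^ d * μ := by
        rw [hE, ← mul_pow, ← mul_pow, ← mul_pow, C0]; congr 2; ring_nf

end Crest.Agent.N76.T
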